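import Vale.Agent.P012.Fourier

namespace Vale.Agent.P012
open Finset ArithmeticFunction
open scoped ArithmeticFunction.Omega Pointwise

/-- all prime factors are at least `z` -/
def rough (z d : ℕ) : Prop := ∀ p : ℕ, p.Prime → p ∣ d → z ≤ p

lemma rough.of_dvd {z d e : ℕ} (h : rough z d) (he : e ∣ d) : rough z e :=
  fun p hp hpe => h p hp (hpe.trans he)

lemma pow_Omega_le {z d : ℕ} (hd : d ≠ 0) (h : rough z d) : z ^ (Ω d) ≤ d := by
  rw [cardFactors_apply]
  conv_rhs => rw [← Nat.prod_primeFactorsList hd]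
  apply List.pow_card_le_prod
  intro p hp
  exact h p (Nat.prime_of_mem_primeFactorsList hp) (Nat.dvd_of_mem_primeFactorsList hp)

lemma sum_div_pow (x : ℝ) (hx : 0 ≤ x) (N : ℕ) (hN : N ≠ 0) :
    ∑ d ∈ N.divisors, x ^ (Ω d) ≤ (1 + x) ^ (Ω N) := by
  classical
  induction N using induction_on_primes with
  | zero => exact absurd rfl hN
  | one => simp
  | prime_mul p n hp ih =>
    have hn : n ≠ 0 := by rintro rfl; simp at hN
    have ih := ih hn
    have hsub : (p * n).divisors ⊆ n.divisors ∪ n.divisors.image (fun d => p * d) := by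
      intro d hd
      rw [Nat.divisors_mul, Finset.mem_mul] at hd
      obtain ⟨u, hu, v, hv, rfl⟩ := hd
      rw [hp.divisors] at hu
      simp only [mem_insert, mem_singleton] at hu
      rcases hu with rfl | rfl
      · simp only [one_mul]; exact mem_union_left _ hv
      · exact mem_union_right _ (mem_image_of_mem _ hv)
    calc ∑ d ∈ (p * n).divisors, x ^ (Ω d)
        ≤ ∑ d ∈ n.divisors ∪ n.divisors.image (fun d => p * d), x ^ (Ω d) :=
          Finset.sum_le_sum_of_subset_of_nonneg hsub (fun _ _ _ => by positivity)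
      _ ≤ ∑ d ∈ n.divisors, x ^ (Ω d) + ∑ d ∈ n.divisors.image (fun d => p * d), x ^ (Ω d) := by
          rw [← Finset.sum_union_inter]
          have : 0 ≤ ∑ d ∈ n.divisors ∩ n.divisors.image (fun d => p * d), x ^ (Ω d) :=
            Finset.sum_nonneg fun _ _ => by positivity
          linarith
      _ = ∑ d ∈ n.divisors, x ^ (Ω d) + x * ∑ d ∈ n.divisors, x ^ (Ω d) := by
          congr 1
          rw [Finset.sum_image (fun a _ b _ h => Nat.eq_of_mul_eq_mul_left hp.pos h),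
            Finset.mul_sum]
          refine Finset.sum_congr rfl fun d hd => ?_
          rw [cardFactors_mul hp.ne_zero (Nat.pos_of_mem_divisors hd).ne',
            cardFactors_apply_prime hp, pow_add, pow_one]
      _ ≤ (1 + x) ^ (Ω (p * n)) := by
          rw [cardFactors_mul hp.ne_zero hn, cardFactors_apply_prime hp, pow_add, pow_one]
          nlinarith

lemma one_add_pow_le (x : ℝ) (hx : 0 ≤ x) (L : ℕ) (h : 2 * x * L ≤ 1) :
    (1 + x) ^ L ≤ 1 + 2 * x * L := by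
  induction L with
  | zero => simp
  | succ n ih =>
    push_cast at h ⊢
    have h1 : 2 * x * n ≤ 1 := by nlinarith
    have := ih h1
    rw [pow_succ]
    nlinarith

lemma sum_div_small (φ L N : ℕ) (hφ : 100 * L ≤ φ) (hφ0 : 0 < φ) (hN : N ≠ 0) (hNL : N ≤ 2 ^ L) :
    ∑ d ∈ N.divisors.erase 1, (1 / (φ : ℝ)) ^ (Ω d) ≤ 1 / 50 := by
  have h1 := sum_div_pow (1 / (φ : ℝ)) (by positivity) N hN
  rw [← Finset.add_sum_erase _ _ (Nat.one_mem_divisors.2 hN)] at h1
  have h2 : Ω N ≤ L := by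
    have := pow_Omega_le (z := 2) hN (fun p hp _ => hp.two_le)
    exact (Nat.pow_le_pow_iff_right (by norm_num)).1 (this.trans hNL)
  have hφ' : (0 : ℝ) < φ := by exact_mod_cast hφ0
  have h3 : 2 * (1 / (φ : ℝ)) * L ≤ 1 / 50 := by
    have : (100 : ℝ) * L ≤ φ := by exact_mod_cast hφ
    rw [show 2 * (1 / (φ : ℝ)) * L = 2 * L / φ by ring, div_le_iff₀ hφ']
    linarith
  have h4 : (1 + 1 / (φ : ℝ)) ^ (Ω N) ≤ (1 + 1 / (φ : ℝ)) ^ L :=
    pow_le_pow_right₀ (by have : 0 ≤ 1 / (φ : ℝ) := by positivity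
                          linarith) h2
  have h5 := one_add_pow_le (1 / (φ : ℝ)) (by positivity) L (by linarith)
  simp only [cardFactors_one, pow_zero] at h1
  linarith

lemma coll_sum (φ L : ℕ) (hφ : 100 * L ≤ φ) (hφ0 : 0 < φ) (A : Finset ℕ)
    (hA : ∀ a ∈ A, a ≤ 2 ^ L) (Q : Finset ℕ) (hQ : ∀ d ∈ Q, d ≠ 1) (f : ℕ → ℝ)
    (_hf0 : ∀ d ∈ Q, 0 ≤ f d) (hf : ∀ d ∈ Q, f d ≤ (1 / (φ : ℝ)) ^ (Ω d)) :
    ∑ d ∈ Q, (coll A d : ℝ) * f d ≤ A.card * ∑ d ∈ Q, f d + (A.card : ℝ) ^ 2 / 50 := by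
  classical
  have h1 : ∑ d ∈ Q, (coll A d : ℝ) * f d
      = ∑ p ∈ A ×ˢ A, ∑ d ∈ Q, if (d : ℤ) ∣ (p.1 : ℤ) - (p.2 : ℤ) then f d else 0 := by
    rw [Finset.sum_comm]
    refine Finset.sum_congr rfl fun d _ => ?_
    rw [← Finset.sum_filter, sum_const, nsmul_eq_mul, coll]
  have h2 : ∀ p ∈ A ×ˢ A, (∑ d ∈ Q, if (d : ℤ) ∣ (p.1 : ℤ) - (p.2 : ℤ) then f d else 0)
      ≤ (if p.1 = p.2 then ∑ d ∈ Q, f d else 0) + 1 / 50 := by
    intro p hp
    rw [mem_product] at hp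
    split_ifs with h
    · simp only [h, sub_self, dvd_zero, if_true]; norm_num
    · rw [zero_add, ← Finset.sum_filter]
      set N := ((p.1 : ℤ) - (p.2 : ℤ)).natAbs with hN
      have hN0 : N ≠ 0 := by omega
      have hNL : N ≤ 2 ^ L := by
        have h1 := hA _ hp.1
        have h2 := hA _ hp.2
        omega
      refine le_trans ?_ (sum_div_small φ L N hφ hφ0 hN0 hNL)
      refine le_trans (Finset.sum_le_sum fun d hd => hf d (mem_of_mem_filter d hd)) ?_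
      refine Finset.sum_le_sum_of_subset_of_nonneg ?_ (fun _ _ _ => by positivity)
      intro d hd
      rw [mem_filter] at hd
      simp only [mem_erase, Nat.mem_divisors]
      exact ⟨hQ d hd.1, Int.natCast_dvd.1 hd.2, hN0⟩
  rw [h1]
  refine (Finset.sum_le_sum h2).trans ?_
  rw [Finset.sum_add_distrib, sum_const, card_product, Finset.sum_product]
  simp only [Finset.sum_ite_eq, nsmul_eq_mul]
  rw [Finset.sum_congr rfl (g := fun _ => ∑ d ∈ Q, f d) (fun a ha => if_pos ha), sum_const,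
    nsmul_eq_mul]
  push_cast
  apply le_of_eq; ring

lemma sum_inv_le (Q : Finset ℕ) (Y : ℕ) (hQ : Q ⊆ Icc 1 Y) :
    ∑ d ∈ Q, (1 / (d : ℝ)) ≤ 1 + Real.log Y := by
  refine le_trans (Finset.sum_le_sum_of_subset_of_nonneg hQ (fun _ _ _ => by positivity)) ?_
  have := harmonic_le_one_add_log Y
  rw [harmonic_eq_sum_Icc] at this
  push_cast at this
  simpa using this

theorem app (A B : Finset ℕ) (X Y V φ ρ L : ℕ) (hρ : 4 ≤ ρ) (hφ : 100 * L ≤ φ) (hφ0 : 0 < φ)
    (hA : ∀ a ∈ A, a ≤ 2 ^ L) (hB : ∀ a ∈ B, a ≤ 2 ^ L) (hY : 1 ≤ Y) (hV : 1 ≤ V)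
    (hYV : Y ^ 3 ≤ V ^ ρ) (hAc : 50 * Y ≤ A.card)
    (hBc : 50 * (V : ℝ) * (1 + Real.log Y) ≤ B.card) :
    ∃ bad : Finset ℕ, (bad.card : ℝ) ≤ X / 10 ∧ ∀ x ∈ Ioc 0 X, x ∉ bad →
      ∀ q, q ∣ x → q ≤ Y → rough (φ ^ ρ) q →
        ∃ a1 ∈ A, ∃ a2 ∈ A, ∃ a3 ∈ A, ∃ l ∈ B, q ∣ a1 + a2 + l * a3 := by
  classical
  set τ : ℕ → ℝ := fun d => (φ : ℝ) ^ (Ω d) with hτ
  have hφ1 : (1 : ℝ) ≤ φ := by exact_mod_cast hφ0
  have hτ0 : ∀ d, 0 < τ d := fun d => by simp only [hτ]; positivity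
  set Q : Finset ℕ := (Icc 2 Y).filter (rough (φ ^ ρ)) with hQ
  have hlog : 0 ≤ Real.log Y := Real.log_nonneg (by exact_mod_cast hY)
  have hV' : (1 : ℝ) ≤ V := by exact_mod_cast hV
  have hY' : (1 : ℝ) ≤ Y := by exact_mod_cast hY
  have hAc' : (50 : ℝ) * Y ≤ A.card := by exact_mod_cast hAc
  have hα : (0 : ℝ) < A.card := by linarith
  have hβ : (0 : ℝ) < B.card := by nlinarith
  have hW0 : ∀ d, 0 ≤ Wt A B τ d := fun d => by
    have := hτ0 d
    unfold Wt; positivity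
  have hQ1 : ∀ d ∈ Q, d ≠ 1 := fun d hd => by
    simp only [hQ, mem_filter, mem_Icc] at hd; omega
  have hQsub : Q ⊆ Icc 1 Y := fun d hd => by
    simp only [hQ, mem_filter, mem_Icc] at hd ⊢; omega
  have hQpow : ∀ d ∈ Q, φ ^ (ρ * Ω d) ≤ d := fun d hd => by
    simp only [hQ, mem_filter, mem_Icc] at hd
    rw [pow_mul]
    exact pow_Omega_le (by omega) hd.2
  -- first sum
  have s1 : ∑ d ∈ Q, (coll A d : ℝ) * (1 / τ d) ≤ (A.card : ℝ) ^ 2 / 25 := by
    have := coll_sum φ L hφ hφ0 A hA Q hQ1 (fun d => 1 / τ d)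
      (fun d _ => by have := hτ0 d; positivity) (fun d _ => by simp [hτ])
    have h2 : ∑ d ∈ Q, 1 / τ d ≤ Y := by
      calc ∑ d ∈ Q, 1 / τ d ≤ ∑ d ∈ Q, (1 : ℝ) := by
            refine Finset.sum_le_sum fun d _ => ?_
            rw [div_le_one (hτ0 d)]
            exact one_le_pow₀ hφ1
        _ = Q.card := by simp
        _ ≤ Y := by
            have := card_le_card hQsub
            simp only [Nat.card_Icc, add_tsub_cancel_right] at this
            exact_mod_cast this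
    nlinarith
  have s2 : ∑ d ∈ Q, (coll B d : ℝ) * (τ d ^ 3 / d) ≤ (B.card : ℝ) ^ 2 / 25 := by
    have := coll_sum φ L hφ hφ0 B hB Q hQ1 (fun d => τ d ^ 3 / d)
      (fun d _ => by have := hτ0 d; positivity) (fun d hd => by
        have h1 := hQpow d hd
        have h2 : φ ^ (4 * Ω d) ≤ d :=
          (Nat.pow_le_pow_right hφ0 (Nat.mul_le_mul_right _ hρ)).trans h1
        have h3 : (φ : ℝ) ^ (4 * Ω d) ≤ d := by exact_mod_cast h2
        have h4 : (0 : ℝ) < (φ : ℝ) ^ (4 * Ω d) := by positivity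
        simp only [hτ]
        calc ((φ : ℝ) ^ Ω d) ^ 3 / d ≤ ((φ : ℝ) ^ Ω d) ^ 3 / (φ : ℝ) ^ (4 * Ω d) :=
              div_le_div_of_nonneg_left (by positivity) h4 h3
          _ = (1 / (φ : ℝ)) ^ (Ω d) := by
              rw [mul_comm 4, pow_mul, one_div, inv_pow]; field_simp)
    have h2 : ∑ d ∈ Q, τ d ^ 3 / d ≤ V * (1 + Real.log Y) := by
      refine le_trans ?_ (mul_le_mul_of_nonneg_left (sum_inv_le Q Y hQsub) (by positivity))
      rw [Finset.mul_sum]
      refine Finset.sum_le_sum fun d hd => ?_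
      have h1 := hQpow d hd
      have hdY : d ≤ Y := (mem_Icc.1 (hQsub hd)).2
      have h3 : ((φ ^ Ω d) ^ 3) ^ ρ ≤ V ^ ρ := by
        refine le_trans ?_ hYV
        rw [← pow_mul, mul_comm 3 ρ, pow_mul, ← pow_mul φ, mul_comm (Ω d)]
        exact Nat.pow_le_pow_left (h1.trans hdY) 3
      have h4 : (φ ^ Ω d) ^ 3 ≤ V := (Nat.pow_le_pow_iff_left (by omega)).1 h3
      have h5 : τ d ^ 3 ≤ V := by simp only [hτ]; exact_mod_cast h4
      rw [mul_one_div]
      exact div_le_div_of_nonneg_right h5 (by positivity)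
    nlinarith
  have s3 : ∑ d ∈ Q, Wt A B τ d / d ≤ 1 / 10 := by
    have : ∑ d ∈ Q, Wt A B τ d / d
        = (∑ d ∈ Q, (coll A d : ℝ) * (1 / τ d)) / (A.card : ℝ) ^ 2
          + (∑ d ∈ Q, (coll B d : ℝ) * (τ d ^ 3 / d)) / (B.card : ℝ) ^ 2 := by
      rw [Finset.sum_div, Finset.sum_div, ← Finset.sum_add_distrib]
      refine Finset.sum_congr rfl fun d hd => ?_
      have hd0 : (0 : ℝ) < d := by exact_mod_cast (mem_Icc.1 (hQsub hd)).1
      have := hτ0 d
      unfold Wt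
      field_simp
    rw [this]
    have e1 : (∑ d ∈ Q, (coll A d : ℝ) * (1 / τ d)) / (A.card : ℝ) ^ 2 ≤ 1 / 25 := by
      rw [div_le_iff₀ (by positivity)]; linarith
    have e2 : (∑ d ∈ Q, (coll B d : ℝ) * (τ d ^ 3 / d)) / (B.card : ℝ) ^ 2 ≤ 1 / 25 := by
      rw [div_le_iff₀ (by positivity)]; linarith
    linarith
  refine ⟨(Ioc 0 X).filter (fun x => 1 ≤ ∑ d ∈ Q.filter (· ∣ x), Wt A B τ d), ?_, ?_⟩
  · calc (((Ioc 0 X).filter (fun x => 1 ≤ ∑ d ∈ Q.filter (· ∣ x), Wt A B τ d)).card : ℝ)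
        = ∑ x ∈ (Ioc 0 X).filter (fun x => 1 ≤ ∑ d ∈ Q.filter (· ∣ x), Wt A B τ d), (1 : ℝ) := by
          simp
      _ ≤ ∑ x ∈ (Ioc 0 X).filter (fun x => 1 ≤ ∑ d ∈ Q.filter (· ∣ x), Wt A B τ d),
            ∑ d ∈ Q.filter (· ∣ x), Wt A B τ d :=
          Finset.sum_le_sum fun x hx => (mem_filter.1 hx).2
      _ ≤ ∑ x ∈ Ioc 0 X, ∑ d ∈ Q.filter (· ∣ x), Wt A B τ d :=
          Finset.sum_le_sum_of_subset_of_nonneg (filter_subset _ _)
            (fun _ _ _ => Finset.sum_nonneg fun d _ => hW0 d)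
      _ = ∑ d ∈ Q, ∑ x ∈ (Ioc 0 X).filter (d ∣ ·), Wt A B τ d := by
          simp only [Finset.sum_filter]
          rw [Finset.sum_comm]
      _ ≤ ∑ d ∈ Q, X * (Wt A B τ d / d) := by
          refine Finset.sum_le_sum fun d hd => ?_
          rw [sum_const, Nat.Ioc_filter_dvd_card_eq_div, nsmul_eq_mul]
          have : ((X / d : ℕ) : ℝ) ≤ X / d := Nat.cast_div_le
          calc ((X / d : ℕ) : ℝ) * Wt A B τ d ≤ X / d * Wt A B τ d :=
                mul_le_mul_of_nonneg_right this (hW0 d)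
            _ = X * (Wt A B τ d / d) := by ring
      _ ≤ X / 10 := by
          rw [← Finset.mul_sum]
          have : (0 : ℝ) ≤ X := by positivity
          nlinarith
  · intro x hx hbad q hqx hqY hq
    have hx0 : x ≠ 0 := by have := (mem_Ioc.1 hx).1; omega
    have hq0 : q ≠ 0 := by rintro rfl; exact hx0 (by simpa using hqx)
    rw [mem_filter, not_and, not_le] at hbad
    have hlt := hbad hx
    refine fourier_lemma q hq0 A B (card_pos.1 (by exact_mod_cast hα))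
      (card_pos.1 (by exact_mod_cast hβ)) τ hτ0 (lt_of_le_of_lt ?_ hlt)
    refine Finset.sum_le_sum_of_subset_of_nonneg ?_ (fun d _ _ => hW0 d)
    intro d hd
    simp only [mem_erase, Nat.mem_divisors] at hd
    have hd0 : d ≠ 0 := by rintro rfl; exact hq0 (by simpa using hd.2.1)
    have hdq : d ≤ q := Nat.le_of_dvd (Nat.pos_of_ne_zero hq0) hd.2.1
    simp only [hQ, mem_filter, mem_Icc]
    exact ⟨⟨⟨by omega, by omega⟩, hq.of_dvd hd.2.1⟩, hd.2.1.trans hqx⟩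

end Vale.Agent.P012
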