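import Vale.Agent.P012.Greedy

namespace Vale.Agent.P012
open Finset

lemma sum_nonneg' (m : Multiset ℕ) : 0 ≤ (m.map (fun n : ℕ => (1 : ℚ) / n)).sum := by
  apply Multiset.sum_nonneg
  intro x hx
  obtain ⟨n, _, rfl⟩ := Multiset.mem_map.1 hx
  positivity

lemma den_bound (K j : ℕ) : ∀ (q : ℕ) (p : ℤ) (m : Multiset ℕ), 1 ≤ q → m.card ≤ j → j ≤ K →
    (∀ n ∈ m, 0 < n) → (m.map (fun n : ℕ => (1 : ℚ) / n)).sum = p / q →
    ∀ n ∈ m, n ≤ (K * q) ^ (2 ^ j) := by
  classical
  induction j with
  | zero =>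
    intro q p m _ hm _ _ _ n hn
    rw [Nat.le_zero, Multiset.card_eq_zero] at hm
    subst hm; simp at hn
  | succ j ih =>
    intro q p m hq hm hK hpos hsum n hn
    have hne : m.toFinset.Nonempty := ⟨n, Multiset.mem_toFinset.2 hn⟩
    obtain ⟨n0, hn0, hmin⟩ := Finset.exists_min_image m.toFinset id hne
    rw [Multiset.mem_toFinset] at hn0
    have hn0pos := hpos n0 hn0
    have hq' : (0 : ℚ) < q := by exact_mod_cast hq
    have hn0' : (0 : ℚ) < n0 := by exact_mod_cast hn0pos
    have h1 : (m.map (fun n : ℕ => (1 : ℚ) / n)).sum ≤ (K : ℚ) * (1 / n0) := by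
      have := Multiset.sum_le_card_nsmul (m.map (fun n : ℕ => (1 : ℚ) / n)) (1 / n0) (by
        intro x hx
        obtain ⟨t, ht, rfl⟩ := Multiset.mem_map.1 hx
        have := hmin t (Multiset.mem_toFinset.2 ht)
        simp only [id] at this
        exact one_div_le_one_div_of_le hn0' (by exact_mod_cast this))
      rw [Multiset.card_map, nsmul_eq_mul] at this
      refine this.trans (mul_le_mul_of_nonneg_right ?_ (by positivity))
      exact_mod_cast hm.trans hK
    obtain ⟨m', rfl⟩ := Multiset.exists_cons_of_mem hn0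
    rw [Multiset.map_cons, Multiset.sum_cons] at hsum h1
    have h2 := sum_nonneg' m'
    have h3 : (0 : ℚ) < p / q := by
      rw [← hsum]; have : (0 : ℚ) < 1 / n0 := by positivity
      linarith
    have h4 : (1 : ℚ) ≤ p := by
      have : (0 : ℚ) < p := by
        by_contra h
        have := div_nonpos_of_nonpos_of_nonneg (not_lt.1 h) hq'.le
        linarith
      have : (0 : ℤ) < p := by exact_mod_cast this
      exact_mod_cast this
    have h5 : n0 ≤ K * q := by
      rw [hsum, mul_one_div, div_le_div_iff₀ hq' hn0'] at h1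
      have : (n0 : ℚ) ≤ K * q := by nlinarith
      exact_mod_cast this
    have hKq : 1 ≤ K * q := le_trans hn0pos h5
    rcases Multiset.mem_cons.1 hn with rfl | hn'
    · exact h5.trans (Nat.le_self_pow (by positivity) _)
    · have := ih (q * n0) (p * n0 - q) m' (Nat.mul_pos hq hn0pos)
        (by rw [Multiset.card_cons] at hm; omega) (by omega)
        (fun t ht => hpos t (Multiset.mem_cons_of_mem ht)) (by
          push_cast
          rw [eq_div_iff (by positivity)]
          rw [eq_div_iff (by positivity)] at hsum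
          field_simp at hsum ⊢
          linear_combination hsum) n hn'
      refine this.trans ?_
      rw [pow_succ', pow_mul, sq]
      refine Nat.pow_le_pow_left ?_ _
      rw [← mul_assoc]
      exact Nat.mul_le_mul_left _ h5

lemma reps_finite (K : ℕ) (x : ℚ) :
    {m : Multiset ℕ | m.card ≤ K ∧ (∀ n ∈ m, 0 < n) ∧
      (m.map (fun n : ℕ => (1 : ℚ) / n)).sum = x}.Finite := by
  classical
  set Bd := (K * x.den) ^ (2 ^ K)
  refine (Set.finite_Iic (K • (range (Bd + 1)).val)).subset ?_
  rintro m ⟨h1, h2, h3⟩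
  have hb := den_bound K K x.den x.num m x.den_pos h1 le_rfl h2 (by rw [h3, Rat.num_div_den])
  rw [Set.mem_Iic, Multiset.le_iff_count]
  intro a
  by_cases ha : a ∈ m
  · rw [Multiset.count_nsmul, Multiset.count_eq_one_of_mem (range (Bd + 1)).nodup
      (Finset.mem_def.1 (Finset.mem_range.2 (Nat.lt_succ_of_le (hb a ha)))), mul_one]
    exact (Multiset.count_le_card a m).trans h1
  · rw [Multiset.count_eq_zero_of_notMem ha]; exact Nat.zero_le _

theorem Rep.distinct {K : ℕ} {x : ℚ} (h : Rep K x) (hx : x < 1) :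
    ∃ s : Finset ℕ, s.card ≤ K ∧ (∀ n ∈ s, 2 ≤ n) ∧ ∑ n ∈ s, (1 : ℚ) / n = x := by
  classical
  obtain ⟨m, ⟨h1, h2, h3⟩, hmax⟩ := Set.exists_max_image _
    (fun m : Multiset ℕ => (m.map (fun n : ℕ => ((1 : ℚ) / n) ^ 2)).sum) (reps_finite K x) h
  have h4 : ∀ n ∈ m, 2 ≤ n := by
    intro n hn
    by_contra hlt
    have hn1 : n = 1 := by have := h2 n hn; omega
    subst hn1
    obtain ⟨m', rfl⟩ := Multiset.exists_cons_of_mem hn
    rw [Multiset.map_cons, Multiset.sum_cons] at h3
    have := sum_nonneg' m'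
    simp only [Nat.cast_one, div_one] at h3
    linarith
  have hnd : m.Nodup := by
    rw [Multiset.nodup_iff_ne_cons_cons]
    rintro n t rfl
    have hn := h4 n (Multiset.mem_cons_self _ _)
    have hpos : ∀ u ∈ t, 0 < u := fun u hu =>
      h2 u (Multiset.mem_cons_of_mem (Multiset.mem_cons_of_mem hu))
    simp only [Multiset.card_cons, Multiset.map_cons, Multiset.sum_cons] at h1 h3 hmax
    rcases Nat.even_or_odd' n with ⟨c, rfl | rfl⟩
    · have hc : 0 < c := by omega
      have hc' : (0 : ℚ) < c := by exact_mod_cast hc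
      have := hmax (c ::ₘ t) ⟨by simp; omega, by
        intro u hu
        rcases Multiset.mem_cons.1 hu with rfl | hu
        · exact hc
        · exact hpos u hu, by
        rw [Multiset.map_cons, Multiset.sum_cons, ← h3]
        push_cast; field_simp; ring⟩
      rw [Multiset.map_cons, Multiset.sum_cons] at this
      push_cast at this
      have e : (1 / (2 * (c : ℚ))) ^ 2 = (1 / (c : ℚ)) ^ 2 / 4 := by field_simp; norm_num
      have e' : 0 < (1 / (c : ℚ)) ^ 2 := by positivity
      rw [e] at this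
      linarith
    · have hc : 0 < c := by omega
      have hc' : (0 : ℚ) < c := by exact_mod_cast hc
      have := hmax ((c + 1) ::ₘ ((2 * c + 1) * (c + 1)) ::ₘ t) ⟨by simp; omega, by
        intro u hu
        rcases Multiset.mem_cons.1 hu with rfl | hu
        · omega
        · rcases Multiset.mem_cons.1 hu with rfl | hu
          · positivity
          · exact hpos u hu, by
        rw [Multiset.map_cons, Multiset.sum_cons, Multiset.map_cons, Multiset.sum_cons, ← h3]
        push_cast; field_simp; ring⟩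
      rw [Multiset.map_cons, Multiset.sum_cons, Multiset.map_cons, Multiset.sum_cons] at this
      push_cast at this
      have e : (1 / ((c : ℚ) + 1)) ^ 2 + (1 / ((2 * c + 1) * (c + 1))) ^ 2
          - 2 * (1 / (2 * (c : ℚ) + 1)) ^ 2 = 2 * c ^ 2 / ((2 * c + 1) * (c + 1)) ^ 2 := by
        field_simp; ring
      have e' : 0 < 2 * (c : ℚ) ^ 2 / ((2 * c + 1) * (c + 1)) ^ 2 := by positivity
      linarith
  exact ⟨⟨m, hnd⟩, h1, h4, h3⟩

theorem lower_nat (b : ℕ) (hb : 2 ≤ b) (s : Finset ℕ) (hs : ∀ n ∈ s, 2 ≤ n)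
    (hsum : ∑ n ∈ s, (1 : ℚ) / n = ((b - 1 : ℕ) : ℚ) / b) :
    1 ≤ s.card ∧ b ≤ (s.card + 1) ^ (2 ^ (s.card + 1)) := by
  have hb' : (0 : ℚ) < b := by exact_mod_cast (show 0 < b by omega)
  constructor
  · by_contra h
    have : s = ∅ := card_eq_zero.1 (by omega)
    subst this
    have h1 : (0 : ℚ) < ((b - 1 : ℕ) : ℚ) := by exact_mod_cast (show 0 < b - 1 by omega)
    have : (0 : ℚ) < ((b - 1 : ℕ) : ℚ) / b := by positivity
    rw [← hsum] at this
    simp at this
  · have := den_bound (s.card + 1) (s.card + 1) 1 1 (b ::ₘ s.val) le_rfl (by simp) le_rfl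
      (by
        intro n hn
        rcases Multiset.mem_cons.1 hn with rfl | hn
        · omega
        · have := hs n hn; omega)
      (by
        rw [Multiset.map_cons, Multiset.sum_cons]
        have : (s.val.map (fun n : ℕ => (1 : ℚ) / n)).sum = ((b - 1 : ℕ) : ℚ) / b := hsum
        rw [this, Nat.cast_sub (by omega)]
        field_simp
        simp) b (Multiset.mem_cons_self _ _)
    simpa using this

theorem lower_real (b : ℕ) (hb : 2 ≤ b) (s : Finset ℕ) (hs : ∀ n ∈ s, 2 ≤ n)
    (hsum : ∑ n ∈ s, (1 : ℚ) / n = ((b - 1 : ℕ) : ℚ) / b) :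
    1 / 4 * Real.log (Real.log b) ≤ s.card := by
  obtain ⟨h1, h2⟩ := lower_nat b hb s hs hsum
  set k := s.card
  have hb1 : (1 : ℝ) < b := by exact_mod_cast (show 1 < b by omega)
  have h3 : Real.log b ≤ (2 : ℝ) ^ (2 * (k + 1)) := by
    have h4 : (b : ℝ) ≤ ((k : ℝ) + 1) ^ (2 ^ (k + 1)) := by exact_mod_cast h2
    have h5 := Real.log_le_log (by linarith) h4
    rw [Real.log_pow] at h5
    have h6 : Real.log ((k : ℝ) + 1) ≤ (2 : ℝ) ^ (k + 1) := by
      have h7 := Real.log_le_sub_one_of_pos (show (0 : ℝ) < k + 1 by positivity)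
      have h8 : k + 1 < 2 ^ (k + 1) := Nat.lt_two_pow_self
      have h9 : (k : ℝ) + 1 < 2 ^ (k + 1) := by exact_mod_cast h8
      linarith
    refine h5.trans ?_
    push_cast
    rw [two_mul, pow_add (2 : ℝ) (k + 1)]
    exact mul_le_mul_of_nonneg_left h6 (by positivity)
  have h4 := Real.log_le_log (Real.log_pos hb1) h3
  rw [Real.log_pow] at h4
  have h5 : Real.log 2 ≤ 1 := by have := Real.log_le_sub_one_of_pos (show (0 : ℝ) < 2 by norm_num); linarith
  have h6 : (1 : ℝ) ≤ k := by exact_mod_cast h1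
  push_cast at h4
  nlinarith

end Vale.Agent.P012
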