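import Vale.Agent.P012.Split
import Vale.Agent.P012.Distinct

namespace Vale.Agent.P012
open Finset
open scoped Nat

lemma pow5_le (r : ℕ) (hr : 64 ≤ r) : r ^ 5 ≤ 2 ^ r := by
  induction r, hr using Nat.le_induction with
  | base => norm_num
  | succ n hn ih =>
    have h1 : (n + 1) ^ 5 ≤ 2 * n ^ 5 := by
      have h2 : 64 * (n + 1) ≤ 65 * n := by omega
      have h3 := Nat.pow_le_pow_left h2 5
      rw [mul_pow, mul_pow] at h3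
      norm_num at h3
      omega
    rw [pow_succ 2 n]; omega

lemma log_two_pow_le (n : ℕ) : Real.log ((2 ^ n : ℕ) : ℝ) ≤ n := by
  push_cast
  rw [Real.log_pow]
  have h5 : Real.log 2 ≤ 1 := by
    have := Real.log_le_sub_one_of_pos (show (0 : ℝ) < 2 by norm_num); linarith
  have : (0 : ℝ) ≤ n := by positivity
  nlinarith

section numeric
variable {r R h y : ℕ}

lemma n68 (hr : 64 ≤ r) (hR5 : r ^ 5 ≤ R) : 68 * r ≤ R := by
  refine le_trans ?_ hR5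
  have e1 : 64 * 64 ≤ r * r := Nat.mul_le_mul hr hr
  calc 68 * r ≤ (r * r) * r := Nat.mul_le_mul_right _ (by omega)
    _ = r ^ 3 := by ring
    _ ≤ r ^ 5 := Nat.pow_le_pow_right (by omega) (by norm_num)

lemma ns (hr : 64 ≤ r) (hR5 : r ^ 5 ≤ R) (hR64 : 2 ^ 64 ≤ R) :
    800 * r * (2 * (2 ^ 37 * r ^ 4) + 6) ≤ R ^ 2 := by
  have hr4 : 1 ≤ r ^ 4 := Nat.pow_pos (by omega)
  have e1 : 800 * r * (2 * (2 ^ 37 * r ^ 4) + 6) ≤ 2 ^ 64 * r ^ 5 := by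
    have e2 : 800 * (2 * (2 ^ 37 * r ^ 4) + 6) ≤ 2 ^ 64 * r ^ 4 := by omega
    calc 800 * r * (2 * (2 ^ 37 * r ^ 4) + 6) = (800 * (2 * (2 ^ 37 * r ^ 4) + 6)) * r := by ring
      _ ≤ (2 ^ 64 * r ^ 4) * r := Nat.mul_le_mul_right _ e2
      _ = 2 ^ 64 * r ^ 5 := by ring
  rw [sq]
  exact e1.trans (Nat.mul_le_mul hR64 hR5)

lemma n105 (hR : 2 ≤ R) : (R ^ 16 + 1) * (R ^ 17 * 2 * R ^ 70) ≤ R ^ 105 := by
  have e3 : R ^ 16 + 1 ≤ R ^ 16 * 2 := by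
    have := Nat.pow_pos (n := 16) (show 0 < R by omega); omega
  calc (R ^ 16 + 1) * (R ^ 17 * 2 * R ^ 70) ≤ (R ^ 16 * 2) * (R ^ 17 * 2 * R ^ 70) :=
        Nat.mul_le_mul_right _ e3
    _ = R ^ 103 * 2 ^ 2 := by ring
    _ ≤ R ^ 103 * R ^ 2 := Nat.mul_le_mul_left _ (Nat.pow_le_pow_left hR 2)
    _ = R ^ 105 := by ring

lemma nJ (hr : 1 ≤ r) :
    20 * (1 + Real.log ((2 ^ (65536 * r ^ 2) : ℕ) : ℝ)) ≤ ((2 ^ 21 * r ^ 2 : ℕ) : ℝ) := by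
  have e1 := log_two_pow_le (65536 * r ^ 2)
  have e2 : (1 : ℝ) ≤ (r : ℝ) ^ 2 := by exact_mod_cast Nat.pow_pos (n := 2) hr
  generalize Real.log ((2 ^ (65536 * r ^ 2) : ℕ) : ℝ) = T at *
  push_cast at e1 ⊢
  linarith

lemma ny1 (y : ℕ) : 50 * 2 ^ y ≤ 2 ^ (2 * y + 6) := by
  rw [pow_add, two_mul y, pow_add]
  have : 1 ≤ 2 ^ y := Nat.pow_pos (show 0 < 2 by norm_num)
  nlinarith

lemma ny2 (y : ℕ) : 50 * ((2 ^ y : ℕ) : ℝ) * (1 + Real.log ((2 ^ y : ℕ) : ℝ))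
    ≤ ((2 ^ (2 * y + 6) : ℕ) : ℝ) := by
  have hy1 : y + 1 ≤ 2 ^ y := Nat.lt_two_pow_self
  have e1 := log_two_pow_le y
  have e3 : (y : ℝ) + 1 ≤ ((2 ^ y : ℕ) : ℝ) := by exact_mod_cast hy1
  rw [pow_add, two_mul y, pow_add, Nat.cast_mul, Nat.cast_mul]
  have e4 : (0 : ℝ) ≤ ((2 ^ y : ℕ) : ℝ) := by positivity
  generalize ((2 ^ y : ℕ) : ℝ) = T at *
  norm_num
  nlinarith

lemma nfac (hr : 64 ≤ r) (hR : R = 2 ^ r) (hR5 : r ^ 5 ≤ R) (hR64 : 2 ^ 64 ≤ R) :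
    (((R ^ 2) ^ 4)!) ^ (2 ^ 21 * r ^ 2) ≤ 2 ^ (r * R ^ 16) := by
  refine (Nat.pow_le_pow_left (Nat.factorial_le_pow _) _).trans ?_
  rw [← pow_mul R 2 4, ← pow_mul, ← pow_mul]
  have e0 : ∀ n : ℕ, R ^ n = 2 ^ (r * n) := fun n => by rw [pow_mul, ← hR]
  rw [e0 (2 * 4 * (R ^ (2 * 4) * (2 ^ 21 * r ^ 2)))]
  refine Nat.pow_le_pow_right (by norm_num) (Nat.mul_le_mul_left _ ?_)
  have e2 : r ^ 2 ≤ R := (Nat.pow_le_pow_right (by omega) (by norm_num)).trans hR5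
  have e1 : 2 ^ 24 * r ^ 2 ≤ R ^ 8 :=
    le_trans (by rw [sq R]; exact Nat.mul_le_mul (by omega) e2)
      (Nat.pow_le_pow_right (by omega) (by norm_num : 2 ≤ 8))
  calc 2 * 4 * (R ^ (2 * 4) * (2 ^ 21 * r ^ 2)) = R ^ 8 * (2 ^ 24 * r ^ 2) := by ring
    _ ≤ R ^ 8 * R ^ 8 := Nat.mul_le_mul_left _ e1
    _ = R ^ 16 := by ring

lemma nB (hrh : r ≤ h) (e5 : 64 ≤ h) :
    50 * ((2 ^ h : ℕ) : ℝ) * (1 + Real.log ((2 ^ (139 * r * h) : ℕ) : ℝ))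
      ≤ ((2 ^ (2 * h) : ℕ) : ℝ) := by
  have e1 := log_two_pow_le (139 * r * h)
  have e3 : 50 * (1 + 139 * r * h) ≤ 2 ^ h := by
    refine le_trans ?_ (pow5_le h e5)
    have e6 : 64 * 64 * 64 ≤ h * h * h :=
      Nat.mul_le_mul (Nat.mul_le_mul e5 e5) e5
    have e7 : r * h ≤ h * h := Nat.mul_le_mul_right _ hrh
    have e8 : 1 ≤ h * h := Nat.mul_pos (by omega) (by omega)
    calc 50 * (1 + 139 * r * h) = 50 * (1 + 139 * (r * h)) := by ring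
      _ ≤ 64 * 64 * 64 * (h * h) := by omega
      _ ≤ h * h * h * (h * h) := Nat.mul_le_mul_right _ e6
      _ = h ^ 5 := by ring
  have e4 : (50 : ℝ) * (1 + ((139 * r * h : ℕ) : ℝ)) ≤ ((2 ^ h : ℕ) : ℝ) := by
    exact_mod_cast e3
  rw [two_mul h, pow_add, Nat.cast_mul]
  have e5 : (0 : ℝ) ≤ ((2 ^ h : ℕ) : ℝ) := by positivity
  generalize ((2 ^ h : ℕ) : ℝ) = T at *
  generalize Real.log ((2 ^ (139 * r * h) : ℕ) : ℝ) = U at *
  nlinarith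

lemma nX {a Ms Mw M0 s : ℕ} (hr : 1 ≤ r) (ha : a ≤ 2 ^ h) (hMs : Ms ≤ 2 ^ (2 * (4 * r) * s))
    (hs : 16 * s ≤ h) (hMw : Mw ≤ 2 ^ (2 * (17 * r) * (2 * h))) (hM0 : M0 ≤ 2 ^ (r * h)) :
    a * (Ms * Ms * (Mw * Mw) * M0) ≤ 2 ^ (139 * r * h) := by
  have e1 : a ≤ 2 ^ (r * h) :=
    ha.trans (Nat.pow_le_pow_right (by norm_num) (Nat.le_mul_of_pos_left _ hr))
  have e2 : Ms * Ms ≤ 2 ^ (r * h) := by
    refine (Nat.mul_le_mul hMs hMs).trans ?_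
    rw [← pow_add]
    refine Nat.pow_le_pow_right (by norm_num) ?_
    calc 2 * (4 * r) * s + 2 * (4 * r) * s = r * (16 * s) := by ring
      _ ≤ r * h := Nat.mul_le_mul_left _ hs
  have e3 : Mw * Mw ≤ 2 ^ (136 * (r * h)) := by
    refine (Nat.mul_le_mul hMw hMw).trans ?_
    rw [← pow_add]
    apply le_of_eq; congr 1; ring
  refine (Nat.mul_le_mul e1 (Nat.mul_le_mul (Nat.mul_le_mul e2 e3) hM0)).trans ?_
  rw [← pow_add, ← pow_add, ← pow_add]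
  apply le_of_eq; congr 1; ring

lemma nA (hr : 1 ≤ r) (hh : 64 ≤ h) : 50 * 2 ^ (139 * r * h) ≤ (2 ^ (2 * h)) ^ (70 * r) := by
  rw [← pow_mul, show 2 * h * (70 * r) = r * h + 139 * r * h by ring, pow_add]
  refine Nat.mul_le_mul_right _ ?_
  have : 1 * 64 ≤ r * h := Nat.mul_le_mul hr hh
  calc 50 ≤ 2 ^ 6 := by norm_num
    _ ≤ 2 ^ (r * h) := Nat.pow_le_pow_right (by norm_num) (by omega)

lemma nYV (r h : ℕ) : (2 ^ (139 * r * h)) ^ 3 ≤ (2 ^ h) ^ (512 * r) := by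
  rw [← pow_mul, ← pow_mul]
  refine Nat.pow_le_pow_right (by norm_num) ?_
  calc 139 * r * h * 3 = 417 * (r * h) := by ring
    _ ≤ 512 * (r * h) := by omega
    _ = h * (512 * r) := by ring

end numeric

theorem greedy_all (r R a b Mw : ℕ) (hr : 64 ≤ r) (hR : R = 2 ^ r) (ha : 1 ≤ a) (hab : a < b)
    (hb : b ≤ 2 ^ (R ^ 16)) (hMw1 : Mw ≤ 2 ^ (2 * (17 * r) * (2 * R ^ 16))) :
    ∃ (a2 b2 : ℕ) (A : Finset ℕ), 1 ≤ a2 ∧ a2 ≤ a ∧ 1 ≤ b2 ∧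
      Rep (87 * r + 1) ((a : ℚ) / b - (a2 : ℚ) / b2) ∧ A.card = Mw.divisors.card ^ (70 * r) ∧
      ∀ x ∈ A, x ≤ 2 ^ (R ^ 105) ∧ DS (70 * r) (b2 * Mw) x ∧ 0 < x := by
  have hR5 : r ^ 5 ≤ R := hR ▸ pow5_le r hr
  have h68 := n68 hr hR5
  have hpw : ∀ i, 2 ^ (i * r) = R ^ i := fun i => by rw [hR, ← pow_mul, mul_comm]
  obtain ⟨a1, b1, g1, g2, g3, g4, g5⟩ := phase1 a b ha hab.le (17 * r)
  have hb1 : 1 ≤ b1 := le_trans (Nat.mul_pos (by positivity) g1) g3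
  obtain ⟨a2, b2, A, f1, f2, f3, -, f5, f6, f7, f8⟩ := phase2 a1 b1 Mw Mw Mw.divisors
    (fun e he => ⟨Nat.dvd_of_mem_divisors he, Nat.pos_of_mem_divisors he, Nat.divisor_le he⟩)
    g1 hb1 (by
      refine le_trans (Nat.mul_le_mul_right _ (hMw1.trans ?_)) g3
      refine Nat.pow_le_pow_right (by norm_num) ?_
      rw [hpw]
      calc 2 * (17 * r) * (2 * R ^ 16) = (68 * r) * R ^ 16 := by ring
        _ ≤ R * R ^ 16 := Nat.mul_le_mul_right _ h68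
        _ = R ^ 17 := by ring) (70 * r)
  have hb2 : b2 ≤ 2 ^ (R ^ 105) := by
    have e1 : b + 1 ≤ 2 ^ (R ^ 16 + 1) := by
      rw [pow_succ]; have : 1 ≤ 2 ^ (R ^ 16) := Nat.pow_pos (by norm_num); omega
    have e2 : b2 + 1 ≤ ((2 ^ (R ^ 16 + 1)) ^ (2 ^ (17 * r + 1))) ^ (2 ^ (70 * r)) :=
      f5.trans (Nat.pow_le_pow_left (g4.trans (Nat.pow_le_pow_left e1 _)) _)
    rw [← pow_mul, ← pow_mul] at e2
    refine (Nat.le_succ b2).trans (e2.trans (Nat.pow_le_pow_right (by norm_num) ?_))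
    rw [pow_succ 2 (17 * r), hpw, hpw]
    exact n105 (by omega)
  refine ⟨a2, b2, A, f1, f2.trans g2, f3, ?_, f7, fun x hx =>
    ⟨(f8 x hx).1.le.trans hb2, (f8 x hx).2.1, (f8 x hx).2.2.resolve_left (by omega)⟩⟩
  have := (g5.add f6).mono (K' := 87 * r + 1) (by omega)
  convert this using 1
  ring

theorem core (r a b : ℕ) (hr : 64 ≤ r) (ha : 1 ≤ a) (hab : a < b) (hb : b ≤ 2 ^ (2 ^ (16 * r))) :
    Rep (1348 * r) ((a : ℚ) / b) := by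
  obtain ⟨R, hR⟩ : ∃ R, R = 2 ^ r := ⟨_, rfl⟩
  have hpw : ∀ i, 2 ^ (i * r) = R ^ i := fun i => by rw [hR, ← pow_mul, mul_comm]
  rw [hpw] at hb
  have hR5 : r ^ 5 ≤ R := hR ▸ pow5_le r hr
  have hR64 : 2 ^ 64 ≤ R := hR ▸ Nat.pow_le_pow_right (by norm_num) hr
  have hr1 : 1 ≤ r := by omega
  have h68 := n68 hr hR5
  have hR1 : 1 ≤ R := by omega
  have hRi : ∀ i j, i ≤ j → R ^ i ≤ R ^ j := fun i j hij => Nat.pow_le_pow_right hR1 hij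
  have hRh : R ≤ R ^ 16 := Nat.le_self_pow (by norm_num) R
  obtain ⟨Mw, hMw0, hMw1, hMw2⟩ := exists_many_divisors (17 * r) (2 * R ^ 16) (by omega) (by
    rw [hpw, pow_succ' R 16]; exact Nat.mul_le_mul_right _ (by omega))
  have hs := ns hr hR5 hR64
  obtain ⟨y, hy⟩ : ∃ y, y = 2 ^ 37 * r ^ 4 := ⟨_, rfl⟩
  rw [← hy] at hs
  have hs' : 16 * (2 * y + 6) ≤ R ^ 2 := le_trans (Nat.mul_le_mul_right _ (by omega)) hs
  obtain ⟨Ms, hMs0, hMs1, hMs2⟩ := exists_many_divisors (4 * r) (2 * y + 6) (by omega) (by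
    rw [hpw]; have := hRi 2 4 (by norm_num); omega)
  obtain ⟨a2, b2, A, f1, f2, f3, f4, f5, f6⟩ := greedy_all r R a b Mw hr hR ha hab hb hMw1
  have hz : (R ^ 128) ^ (512 * r) = 2 ^ (65536 * r ^ 2) := by
    rw [hR, ← pow_mul, ← pow_mul]; congr 1; ring
  have hzJ : ((R ^ 128) ^ (512 * r)) ^ (2 ^ 21 * r ^ 2) = 2 ^ y := by
    rw [hz, ← pow_mul, hy]; congr 1; ring
  have hcard : 2 ^ (2 * R ^ 16) ≤ Mw := hMw2.trans (Nat.card_divisors_le_self Mw)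
  have k1 : 3 ≤ Mw := by
    refine le_trans ?_ hcard
    calc 3 ≤ 2 ^ 2 := by norm_num
      _ ≤ 2 ^ (2 * R ^ 16) := Nat.pow_le_pow_right (by norm_num) (by omega)
  have k2 : Mw ≤ 2 ^ (R ^ 105) := by
    refine hMw1.trans (Nat.pow_le_pow_right (by norm_num) ?_)
    calc 2 * (17 * r) * (2 * R ^ 16) = (68 * r) * R ^ 16 := by ring
      _ ≤ R * R ^ 16 := Nat.mul_le_mul_right _ h68
      _ = R ^ 17 := by ring
      _ ≤ R ^ 105 := hRi _ _ (by norm_num)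
  have k3 : 100 * (2 * (4 * r) * (2 * y + 6)) ≤ R ^ 2 := by
    refine le_trans (le_of_eq ?_) hs; ring
  have k4 : 100 * R ^ 105 ≤ R ^ 128 := by
    calc 100 * R ^ 105 ≤ R * R ^ 105 := Nat.mul_le_mul_right _ (by omega)
      _ = R ^ 106 := by ring
      _ ≤ R ^ 128 := hRi _ _ (by norm_num)
  have key := split_rep a2 b2 A (70 * r) Mw Ms (2 ^ 21 * r ^ 2) (R ^ 2) (R ^ 128) (512 * r)
    (2 * (4 * r) * (2 * y + 6)) (R ^ 105) (2 ^ (139 * r * R ^ 16)) (2 ^ (R ^ 16)) f1 f3 k1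
    hMs0 f6 k2 hMs1 (by omega) k3 (Nat.pow_pos hR1) k4 (Nat.pow_pos hR1)
    (by rw [hz]; exact nJ hr1) (by positivity)
    (by rw [hzJ]; exact (ny1 y).trans hMs2)
    (by rw [hzJ]; exact (ny2 y).trans (by exact_mod_cast hMs2))
    (nX hr1 (f2.trans (hab.le.trans hb)) hMs1 (hs'.trans (hRi 2 16 (by norm_num))) hMw1
      (nfac hr hR hR5 hR64))
    (nYV _ _) (Nat.pow_pos (by norm_num))
    (by rw [f5]; exact (nA hr1 (by omega)).trans (Nat.pow_le_pow_left hMw2 _))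
    ((nB (by omega) (by omega)).trans (by exact_mod_cast hMw2))
  have := (f4.add key).mono (K' := 1348 * r) (by omega)
  convert this using 1
  ring

theorem upper_real : ∃ b₀ : ℕ, ∀ b ≥ b₀, ∀ a, 1 ≤ a → a < b → ∃ s : Finset ℕ,
    (∀ n ∈ s, 2 ≤ n) ∧ ∑ n ∈ s, (1 : ℚ) / n = (a : ℚ) / b ∧
      (s.card : ℝ) ≤ 200000 * Real.log (Real.log b) := by
  refine ⟨2 ^ 4, fun b hb a ha hab => ?_⟩
  set c := Nat.clog 2 b with hc
  set t := Nat.clog 2 c with ht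
  have h1 : b ≤ 2 ^ c := Nat.le_pow_clog (by norm_num) b
  have h2 : c ≤ 2 ^ t := Nat.le_pow_clog (by norm_num) c
  have hrep := core (t + 64) a b (by omega) ha hab (h1.trans (Nat.pow_le_pow_right (by norm_num)
    (h2.trans (Nat.pow_le_pow_right (by norm_num) (by omega)))))
  have hb0 : (0 : ℚ) < b := by exact_mod_cast (show 0 < b by omega)
  obtain ⟨s, hs1, hs2, hs3⟩ := hrep.distinct (by
    rw [div_lt_one hb0]; exact_mod_cast hab)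
  refine ⟨s, hs2, hs3, ?_⟩
  have hc4 : 4 ≤ c := by
    by_contra hlt
    have : 2 ^ c ≤ 2 ^ 3 := Nat.pow_le_pow_right (by norm_num) (by omega)
    omega
  have h3 : 2 ^ (c - 1) < b := Nat.pow_pred_clog_lt_self (by norm_num) (by omega)
  have h4 : 2 ^ (t - 1) < c := Nat.pow_pred_clog_lt_self (by norm_num) (by omega)
  have hl2 := Real.log_two_gt_d9
  have hl2' := Real.log_two_lt_d9
  -- log b ≥ (c-1) log 2
  have h5 : ((c - 1 : ℕ) : ℝ) * Real.log 2 ≤ Real.log b := by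
    rw [← Real.log_pow]
    exact Real.log_le_log (by positivity) (by exact_mod_cast h3.le)
  have h6 : ((2 ^ (t - 1) : ℕ) : ℝ) ≤ ((c - 1 : ℕ) : ℝ) := by exact_mod_cast (by omega)
  have h7 : (3 : ℝ) ≤ ((c - 1 : ℕ) : ℝ) := by exact_mod_cast (by omega)
  have h8 : (2 : ℝ) ≤ Real.log b := by nlinarith
  have h9 : Real.log 2 ≤ Real.log (Real.log b) := Real.log_le_log (by norm_num) h8
  have h10 : ((t - 1 : ℕ) : ℝ) * Real.log 2 ≤ Real.log (Real.log b) + Real.log 2 := by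
    rw [← Real.log_pow, ← Real.log_mul (by linarith) (by norm_num)]
    refine Real.log_le_log (by positivity) ?_
    push_cast at h6
    nlinarith
  have h11 : (t : ℝ) ≤ ((t - 1 : ℕ) : ℝ) + 1 := by exact_mod_cast (by omega)
  have h12 : (s.card : ℝ) ≤ 1348 * (t + 64) := by exact_mod_cast hs1
  have h13 : (0 : ℝ) ≤ ((t - 1 : ℕ) : ℝ) := by positivity
  nlinarith

end Vale.Agent.P012
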