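import Mathlib

namespace Vale.Agent.P012
open Finset

/-- number of ordered pairs from `A` congruent modulo `d` -/
def coll (A : Finset ℕ) (d : ℕ) : ℕ :=
  ((A ×ˢ A).filter (fun p => (d : ℤ) ∣ (p.1 : ℤ) - (p.2 : ℤ))).card

section
variable {q : ℕ} [NeZero q]

noncomputable def FT (A : Finset ℕ) (ξ : ZMod q) : ℂ :=
  ∑ a ∈ A, ZMod.stdAddChar (ξ * (a : ZMod q))

def Hs (q d : ℕ) [NeZero q] : Finset (ZMod q) := univ.filter (fun η => d • η = 0)

lemma card_Hs {d : ℕ} (hd : 0 < d) : (Hs q d).card ≤ d := by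
  classical
  have := IsAddCyclic.card_nsmul_eq_zero_le (α := ZMod q) hd
  convert this using 2
  ext x; simp [Hs]

lemma sum_Hs_zero {d : ℕ} (hd : d ∣ q) (N : ℤ) (hN : ¬ (d : ℤ) ∣ N) :
    ∑ η ∈ Hs q d, ZMod.stdAddChar (η * (N : ZMod q)) = 0 := by
  obtain ⟨c, hc⟩ := hd
  have hq : q ≠ 0 := NeZero.ne q
  have hc0 : c ≠ 0 := by rintro rfl; simp at hc; exact hq hc
  set η0 : ZMod q := (c : ZMod q) with hη0
  have h0 : d • η0 = 0 := by
    rw [hη0, nsmul_eq_mul, ← Nat.cast_mul, ← hc]; simp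
  have h1 : ZMod.stdAddChar (η0 * (N : ZMod q)) ≠ 1 := by
    intro h
    rw [← (ZMod.stdAddChar (N := q)).map_zero_eq_one, ZMod.injective_stdAddChar.eq_iff] at h
    have h2 : (((c : ℤ) * N : ℤ) : ZMod q) = 0 := by push_cast; exact h
    rw [ZMod.intCast_zmod_eq_zero_iff_dvd] at h2
    apply hN
    rw [hc] at h2
    push_cast at h2
    rw [mul_comm (d : ℤ) c] at h2
    exact (mul_dvd_mul_iff_left (by exact_mod_cast hc0)).1 h2
  have h3 : ∑ η ∈ Hs q d, ZMod.stdAddChar ((η0 + η) * (N : ZMod q))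
      = ∑ η ∈ Hs q d, ZMod.stdAddChar (η * (N : ZMod q)) := by
    apply Finset.sum_equiv (Equiv.addLeft η0)
    · intro η
      simp only [Hs, mem_filter, mem_univ, true_and, Equiv.coe_addLeft, smul_add, h0, zero_add]
    · intro η _; rfl
  simp_rw [add_mul, AddChar.map_add_eq_mul] at h3
  rw [← Finset.mul_sum] at h3
  exact eq_zero_of_mul_eq_self_left h1 h3

lemma norm_sum_Hs_le {d : ℕ} (hd : d ∣ q) (N : ℤ) :
    ‖∑ η ∈ Hs q d, ZMod.stdAddChar (η * (N : ZMod q))‖ ≤ if (d : ℤ) ∣ N then (d : ℝ) else 0 := by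
  have hq : q ≠ 0 := NeZero.ne q
  have hd0 : 0 < d := Nat.pos_of_ne_zero (by rintro rfl; exact hq (by simpa using hd))
  split_ifs with h
  · refine (norm_sum_le _ _).trans ?_
    simp only [AddChar.norm_apply, sum_const, nsmul_eq_mul, mul_one]
    exact_mod_cast card_Hs hd0
  · rw [sum_Hs_zero hd N h]; simp

lemma parseval_Hs {d : ℕ} (hd : d ∣ q) (A : Finset ℕ) :
    ∑ η ∈ Hs q d, ‖FT A η‖ ^ 2 ≤ d * coll A d := by
  have key : ((∑ η ∈ Hs q d, ‖FT A η‖ ^ 2 : ℝ) : ℂ)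
      = ∑ p ∈ A ×ˢ A, ∑ η ∈ Hs q d,
          ZMod.stdAddChar (η * ((((p.1 : ℤ) - (p.2 : ℤ) : ℤ)) : ZMod q)) := by
    rw [Finset.sum_comm]
    push_cast
    refine Finset.sum_congr rfl fun η _ => ?_
    rw [← Complex.mul_conj', FT, map_sum, Finset.sum_mul_sum, Finset.sum_product]
    refine Finset.sum_congr rfl fun a _ => Finset.sum_congr rfl fun b _ => ?_
    rw [← AddChar.map_neg_eq_conj, ← AddChar.map_add_eq_mul]
    congr 1; ring
  have h1 : (∑ η ∈ Hs q d, ‖FT A η‖ ^ 2 : ℝ) ≤ ‖((∑ η ∈ Hs q d, ‖FT A η‖ ^ 2 : ℝ) : ℂ)‖ := by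
    rw [Complex.norm_real]; exact le_abs_self _
  refine h1.trans ?_
  rw [key]
  refine (norm_sum_le _ _).trans ?_
  refine (Finset.sum_le_sum fun p _ => norm_sum_Hs_le hd _).trans ?_
  rw [← Finset.sum_filter, sum_const, nsmul_eq_mul, coll, mul_comm]

lemma mult_bound (A B : Finset ℕ) (ξ : ZMod q) :
    (∑ l ∈ B, ‖FT A (ξ * (l : ZMod q))‖) ^ 2
      ≤ (coll B (addOrderOf ξ) : ℝ) * ((addOrderOf ξ : ℝ) * coll A (addOrderOf ξ)) := by
  classical
  set d := addOrderOf ξ with hd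
  have hdq : d ∣ q := by
    rw [hd, addOrderOf_dvd_iff_nsmul_eq_zero]; simp
  have hmem : ∀ l ∈ B, ξ * (l : ZMod q) ∈ Hs q d := by
    intro l _
    simp only [Hs, mem_filter, mem_univ, true_and]
    rw [← smul_mul_assoc, hd, addOrderOf_nsmul_eq_zero, zero_mul]
  set c : ZMod q → ℝ := fun u => ∑ l ∈ B, if ξ * (l : ZMod q) = u then 1 else 0 with hc
  have h1 : ∑ l ∈ B, ‖FT A (ξ * (l : ZMod q))‖ = ∑ u ∈ Hs q d, c u * ‖FT A u‖ := by
    simp only [hc, Finset.sum_mul]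
    rw [Finset.sum_comm]
    refine Finset.sum_congr rfl fun l hl => ?_
    simp only [ite_mul, one_mul, zero_mul]
    rw [Finset.sum_ite_eq, if_pos (hmem l hl)]
  have h2 : ∑ u ∈ Hs q d, c u ^ 2 = (coll B d : ℝ) := by
    simp only [hc, sq, Finset.sum_mul_sum]
    rw [Finset.sum_comm]
    rw [coll, Finset.card_filter, Finset.sum_product]
    push_cast
    refine Finset.sum_congr rfl fun l hl => ?_
    rw [Finset.sum_comm]
    refine Finset.sum_congr rfl fun l' hl' => ?_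
    simp only [ite_mul, one_mul, zero_mul]
    rw [Finset.sum_ite_eq, if_pos (hmem l hl)]
    refine if_congr ?_ rfl rfl
    rw [hd, addOrderOf_dvd_iff_zsmul_eq_zero, zsmul_eq_mul]
    push_cast
    constructor
    · intro h; linear_combination -h
    · intro h; linear_combination -h
  rw [h1]
  refine (Finset.sum_mul_sq_le_sq_mul_sq _ _ _).trans ?_
  rw [h2]
  exact mul_le_mul_of_nonneg_left (parseval_Hs hdq A) (by positivity)

lemma main_identity (A B : Finset ℕ)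
    (h : ∀ a1 ∈ A, ∀ a2 ∈ A, ∀ a3 ∈ A, ∀ l ∈ B, ¬ q ∣ a1 + a2 + l * a3) :
    ∑ ξ : ZMod q, FT A ξ * FT A ξ * ∑ l ∈ B, FT A (ξ * (l : ZMod q)) = 0 := by
  have : ∀ ξ : ZMod q, FT A ξ * FT A ξ * ∑ l ∈ B, FT A (ξ * (l : ZMod q))
      = ∑ a1 ∈ A, ∑ a2 ∈ A, ∑ l ∈ B, ∑ a3 ∈ A,
        ZMod.stdAddChar (ξ * ((a1 + a2 + l * a3 : ℕ) : ZMod q)) := by
    intro ξ
    rw [FT, Finset.sum_mul_sum, Finset.sum_mul]
    refine Finset.sum_congr rfl fun a1 _ => ?_
    rw [Finset.sum_mul]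
    refine Finset.sum_congr rfl fun a2 _ => ?_
    rw [Finset.mul_sum]
    refine Finset.sum_congr rfl fun l _ => ?_
    rw [FT, Finset.mul_sum]
    refine Finset.sum_congr rfl fun a3 _ => ?_
    rw [← AddChar.map_add_eq_mul, ← AddChar.map_add_eq_mul]
    congr 1; push_cast; ring
  simp_rw [this]
  rw [Finset.sum_comm]
  refine Finset.sum_eq_zero fun a1 h1 => ?_
  rw [Finset.sum_comm]
  refine Finset.sum_eq_zero fun a2 h2 => ?_
  rw [Finset.sum_comm]
  refine Finset.sum_eq_zero fun l hl => ?_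
  rw [Finset.sum_comm]
  refine Finset.sum_eq_zero fun a3 h3 => ?_
  rw [AddChar.sum_mulShift _ (ZMod.isPrimitive_stdAddChar q), if_neg]
  · simp
  · rw [ZMod.natCast_eq_zero_iff]; exact h a1 h1 a2 h2 a3 h3 l hl

end

/-- weight attached to a modulus `d` -/
noncomputable def Wt (A B : Finset ℕ) (τ : ℕ → ℝ) (d : ℕ) : ℝ :=
  (d : ℝ) * coll A d / (A.card : ℝ) ^ 2 / τ d + τ d ^ 3 * (coll B d / (B.card : ℝ) ^ 2)

theorem fourier_lemma (q : ℕ) (hq : q ≠ 0) (A B : Finset ℕ) (hA : A.Nonempty) (hB : B.Nonempty)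
    (τ : ℕ → ℝ) (hτ : ∀ d, 0 < τ d)
    (hW : ∑ d ∈ q.divisors.erase 1, Wt A B τ d < 1) :
    ∃ a1 ∈ A, ∃ a2 ∈ A, ∃ a3 ∈ A, ∃ l ∈ B, q ∣ a1 + a2 + l * a3 := by
  classical
  have : NeZero q := ⟨hq⟩
  by_contra hcon
  push Not at hcon
  have h0 := main_identity (q := q) A B hcon
  rw [← Finset.add_sum_erase _ _ (mem_univ (0 : ZMod q))] at h0
  have hα : (0 : ℝ) < A.card := by exact_mod_cast hA.card_pos
  have hβ : (0 : ℝ) < B.card := by exact_mod_cast hB.card_pos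
  set α : ℝ := (A.card : ℝ) with hαdef
  set β : ℝ := (B.card : ℝ) with hβdef
  have h1 : FT A (0 : ZMod q) * FT A (0 : ZMod q) * ∑ l ∈ B, FT A ((0 : ZMod q) * (l : ZMod q))
      = ((α ^ 3 * β : ℝ) : ℂ) := by
    simp [FT, hαdef, hβdef]; ring
  rw [h1] at h0
  have h2 : α ^ 3 * β ≤ ∑ ξ ∈ univ.erase (0 : ZMod q),
      ‖FT A ξ‖ ^ 2 * ∑ l ∈ B, ‖FT A (ξ * (l : ZMod q))‖ := by
    have h3 : ((α ^ 3 * β : ℝ) : ℂ) = - ∑ ξ ∈ univ.erase (0 : ZMod q),
        FT A ξ * FT A ξ * ∑ l ∈ B, FT A (ξ * (l : ZMod q)) := by linear_combination h0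
    have h4 : α ^ 3 * β = ‖((α ^ 3 * β : ℝ) : ℂ)‖ := by
      rw [Complex.norm_real, Real.norm_of_nonneg (by positivity)]
    rw [h4, h3, norm_neg]
    refine (norm_sum_le _ _).trans (Finset.sum_le_sum fun ξ _ => ?_)
    rw [norm_mul, norm_mul, sq]
    exact mul_le_mul_of_nonneg_left (norm_sum_le _ _) (by positivity)
  have hWnn : ∀ d : ℕ, 0 ≤ (d : ℝ) * coll A d / α ^ 2 / τ d ∧ 0 ≤ τ d ^ 3 * (coll B d / β ^ 2) := by
    intro d
    have := hτ d
    constructor <;> positivity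
  have hW1 : ∀ d ∈ q.divisors.erase 1, Wt A B τ d < 1 := by
    intro d hd
    refine lt_of_le_of_lt ?_ hW
    exact Finset.single_le_sum (f := Wt A B τ) (fun i _ => add_nonneg (hWnn i).1 (hWnn i).2) hd
  -- bound for the multiplier sum
  have h5 : ∀ ξ ∈ univ.erase (0 : ZMod q), addOrderOf ξ ∈ q.divisors.erase 1 := by
    intro ξ hξ
    simp only [mem_erase, mem_univ, and_true] at hξ
    simp only [mem_erase, Nat.mem_divisors]
    refine ⟨by rwa [Ne, AddMonoid.addOrderOf_eq_one_iff], ?_, hq⟩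
    rw [addOrderOf_dvd_iff_nsmul_eq_zero]; simp
  have h6 : ∀ ξ ∈ univ.erase (0 : ZMod q),
      ∑ l ∈ B, ‖FT A (ξ * (l : ZMod q))‖ ≤ α * β / τ (addOrderOf ξ) := by
    intro ξ hξ
    have hd := hW1 _ (h5 ξ hξ)
    have hm := mult_bound A B ξ
    set d := addOrderOf ξ
    have ht := hτ d
    obtain ⟨n1, n2⟩ := hWnn d
    have e1 : (d : ℝ) * coll A d / α ^ 2 / τ d ≤ 1 := by
      unfold Wt at hd; linarith
    have e2 : τ d ^ 3 * (coll B d / β ^ 2) ≤ 1 := by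
      unfold Wt at hd; linarith
    have e3 : (coll B d : ℝ) * ((d : ℝ) * coll A d) ≤ (α * β / τ d) ^ 2 := by
      have e4 : (coll B d : ℝ) * ((d : ℝ) * coll A d)
          = ((d : ℝ) * coll A d / α ^ 2 / τ d) * (τ d ^ 3 * (coll B d / β ^ 2))
            * (α * β / τ d) ^ 2 := by
        field_simp
      rw [e4]
      have e5 : ((d : ℝ) * coll A d / α ^ 2 / τ d) * (τ d ^ 3 * (coll B d / β ^ 2)) ≤ 1 :=
        mul_le_one₀ e1 n2 e2
      have e6 : 0 ≤ (α * β / τ d) ^ 2 := by positivity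
      nlinarith
    exact (pow_le_pow_iff_left₀ (by positivity) (by positivity) two_ne_zero).1 (hm.trans e3)
  have h7 : ∑ ξ ∈ univ.erase (0 : ZMod q),
      ‖FT A ξ‖ ^ 2 * ∑ l ∈ B, ‖FT A (ξ * (l : ZMod q))‖
      ≤ ∑ d ∈ q.divisors.erase 1, (α ^ 3 * β) * Wt A B τ d := by
    rw [← Finset.sum_fiberwise_of_maps_to h5]
    refine Finset.sum_le_sum fun d hd => ?_
    have hdq : d ∣ q := Nat.dvd_of_mem_divisors (mem_of_mem_erase hd)
    have ht := hτ d
    calc ∑ ξ ∈ (univ.erase (0 : ZMod q)) with addOrderOf ξ = d,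
          ‖FT A ξ‖ ^ 2 * ∑ l ∈ B, ‖FT A (ξ * (l : ZMod q))‖
        ≤ ∑ ξ ∈ (univ.erase (0 : ZMod q)) with addOrderOf ξ = d,
          ‖FT A ξ‖ ^ 2 * (α * β / τ d) := by
          refine Finset.sum_le_sum fun ξ hξ => ?_
          rw [mem_filter] at hξ
          have := h6 ξ hξ.1
          rw [hξ.2] at this
          exact mul_le_mul_of_nonneg_left this (by positivity)
      _ ≤ ∑ ξ ∈ Hs q d, ‖FT A ξ‖ ^ 2 * (α * β / τ d) := by
          refine Finset.sum_le_sum_of_subset_of_nonneg ?_ (fun _ _ _ => by positivity)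
          intro ξ hξ
          rw [mem_filter] at hξ
          simp only [Hs, mem_filter, mem_univ, true_and]
          rw [← hξ.2]; exact addOrderOf_nsmul_eq_zero ξ
      _ ≤ (d * coll A d) * (α * β / τ d) := by
          rw [← Finset.sum_mul]
          exact mul_le_mul_of_nonneg_right (parseval_Hs hdq A) (by positivity)
      _ = (α ^ 3 * β) * ((d : ℝ) * coll A d / α ^ 2 / τ d) := by field_simp
      _ ≤ (α ^ 3 * β) * Wt A B τ d := by
          refine mul_le_mul_of_nonneg_left ?_ (by positivity)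
          unfold Wt
          have := (hWnn d).2
          linarith
  rw [← Finset.mul_sum] at h7
  have h8 : 0 < α ^ 3 * β := by positivity
  nlinarith

end Vale.Agent.P012
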