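import Mathlib

namespace Vale.Agent.P012
open Finset

/-- `x` is a sum of at most `K` unit fractions, repetitions allowed -/
def Rep (K : ℕ) (x : ℚ) : Prop :=
  ∃ m : Multiset ℕ, m.card ≤ K ∧ (∀ n ∈ m, 0 < n) ∧ (m.map (fun n : ℕ => (1 : ℚ) / n)).sum = x

/-- `S` is a sum of at most `K` divisors of `M`, repetitions allowed -/
def DS (K M S : ℕ) : Prop :=
  ∃ m : Multiset ℕ, m.card ≤ K ∧ (∀ d ∈ m, d ∣ M) ∧ m.sum = S

lemma Rep.zero : Rep 0 0 := ⟨0, by simp, by simp, by simp⟩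

lemma Rep.one {n : ℕ} (hn : 0 < n) : Rep 1 (1 / n) := ⟨{n}, by simp, by simpa, by simp⟩

lemma Rep.mono {K K' : ℕ} {x : ℚ} (h : Rep K x) (hK : K ≤ K') : Rep K' x := by
  obtain ⟨m, h1, h2, h3⟩ := h
  exact ⟨m, h1.trans hK, h2, h3⟩

lemma Rep.add {K K' : ℕ} {x y : ℚ} (h : Rep K x) (h' : Rep K' y) : Rep (K + K') (x + y) := by
  obtain ⟨m, h1, h2, h3⟩ := h
  obtain ⟨m', h1', h2', h3'⟩ := h'
  refine ⟨m + m', by simp; omega, ?_, by rw [Multiset.map_add, Multiset.sum_add, h3, h3']⟩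
  intro n hn
  rcases Multiset.mem_add.1 hn with h | h
  · exact h2 n h
  · exact h2' n h

lemma DS.zero (M : ℕ) : DS 0 M 0 := ⟨0, by simp, by simp, by simp⟩

lemma DS.single {M d : ℕ} (h : d ∣ M) : DS 1 M d := ⟨{d}, by simp, by simpa, by simp⟩

lemma DS.mono {K K' M M' S : ℕ} (h : DS K M S) (hK : K ≤ K') (hM : M ∣ M') : DS K' M' S := by
  obtain ⟨m, h1, h2, h3⟩ := h
  exact ⟨m, h1.trans hK, fun d hd => (h2 d hd).trans hM, h3⟩

lemma DS.add {K K' M S S' : ℕ} (h : DS K M S) (h' : DS K' M S') : DS (K + K') M (S + S') := by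
  obtain ⟨m, h1, h2, h3⟩ := h
  obtain ⟨m', h1', h2', h3'⟩ := h'
  refine ⟨m + m', by simp; omega, ?_, by rw [Multiset.sum_add, h3, h3']⟩
  intro n hn
  rcases Multiset.mem_add.1 hn with h | h
  · exact h2 n h
  · exact h2' n h

lemma DS.smul {K M M' S l : ℕ} (h : DS K M S) (hl : l ∣ M') : DS K (M' * M) (l * S) := by
  obtain ⟨m, h1, h2, h3⟩ := h
  refine ⟨m.map (fun d => l * d), by simpa, ?_, by rw [Multiset.sum_map_mul_left]; simp [h3]⟩
  intro d hd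
  obtain ⟨e, he, rfl⟩ := Multiset.mem_map.1 hd
  exact mul_dvd_mul hl (h2 e he)

lemma DS.mul {K K' M M' S S' : ℕ} (h : DS K M S) (h' : DS K' M' S') :
    DS (K * K') (M * M') (S * S') := by
  obtain ⟨m, h1, h2, rfl⟩ := h
  refine DS.mono (K := m.card * K') ?_ (Nat.mul_le_mul_right _ h1) dvd_rfl
  clear h1
  induction m using Multiset.induction_on with
  | empty => simpa using DS.zero _
  | cons d m ih =>
    rw [Multiset.card_cons, Multiset.sum_cons, add_mul, add_mul, one_mul, add_comm (d * S')]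
    exact (ih fun e he => h2 e (Multiset.mem_cons_of_mem he)).add
      (h'.smul (h2 d (Multiset.mem_cons_self _ _)))

lemma DS.rep {K M S n : ℕ} (h : DS K M S) (hM : M ≠ 0) (hn : n ≠ 0) :
    Rep K ((S : ℚ) / (M * n)) := by
  obtain ⟨m, h1, h2, rfl⟩ := h
  refine Rep.mono (K := m.card) ?_ h1
  clear h1
  induction m using Multiset.induction_on with
  | empty => simpa using Rep.zero
  | cons d m ih =>
    rw [Multiset.card_cons, Multiset.sum_cons, Nat.cast_add, add_comm (d : ℚ), add_div]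
    refine (ih fun e he => h2 e (Multiset.mem_cons_of_mem he)).add ?_
    obtain ⟨c, hc⟩ := h2 d (Multiset.mem_cons_self _ _)
    have hd : d ≠ 0 := by rintro rfl; simp at hc; exact hM hc
    have hc0 : c ≠ 0 := by rintro rfl; simp at hc; exact hM hc
    have := Rep.one (n := c * n) (by positivity)
    convert this using 1
    rw [hc]; push_cast
    have : (d : ℚ) ≠ 0 := by exact_mod_cast hd
    have : (c : ℚ) ≠ 0 := by exact_mod_cast hc0
    have : (n : ℚ) ≠ 0 := by exact_mod_cast hn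
    field_simp

lemma DS.rep' {K N S y e M0 : ℕ} (h : DS K N S) (hS : S ≠ 0) (hy : y ∣ S) (he : e ∣ M0)
    (hM0 : M0 ≠ 0) (hN : N ≠ 0) : Rep K (((e * y : ℕ) : ℚ) / ((N * M0 : ℕ) : ℚ)) := by
  obtain ⟨n, rfl⟩ := hy
  obtain ⟨m, rfl⟩ := he
  have hn : n ≠ 0 := by rintro rfl; simp at hS
  have hm : m ≠ 0 := by rintro rfl; simp at hM0
  have he : e ≠ 0 := by rintro rfl; simp at hM0
  have := h.rep (n := n * m) hN (by positivity)
  convert this using 1
  push_cast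
  have : (e : ℚ) ≠ 0 := by exact_mod_cast he
  have : (m : ℚ) ≠ 0 := by exact_mod_cast hm
  have : (n : ℚ) ≠ 0 := by exact_mod_cast hn
  have : (N : ℚ) ≠ 0 := by exact_mod_cast hN
  field_simp

lemma greedy_step (a b : ℕ) (ha : 1 ≤ a) (hb : 1 ≤ b) :
    ∃ a' n : ℕ, 1 ≤ a' ∧ a' ≤ a ∧ n ≤ b + 1 ∧ (∀ c, c * a ≤ b → c < n) ∧
      (a : ℚ) / b - (a' : ℚ) / ((b * n : ℕ) : ℚ) = 1 / n := by
  have h1 := Nat.div_add_mod b a
  have h2 := Nat.mod_lt b (show a > 0 by omega)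
  refine ⟨a - b % a, b / a + 1, by omega, by omega, ?_, ?_, ?_⟩
  · have := Nat.div_le_self b a; omega
  · intro c hc
    have := (Nat.le_div_iff_mul_le (show 0 < a by omega)).2 hc
    omega
  · rw [Nat.cast_sub h2.le]
    have h3 : (b : ℚ) = a * ((b / a : ℕ) : ℚ) + ((b % a : ℕ) : ℚ) := by exact_mod_cast h1.symm
    have h4 : (b : ℚ) ≠ 0 := by exact_mod_cast (show b ≠ 0 by omega)
    push_cast
    have h5 : ((b / a : ℕ) : ℚ) + 1 ≠ 0 := by positivity
    field_simp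
    linear_combination -h3

lemma sq_bound {b b' n t : ℕ} (h : b' + 1 ≤ (b + 1) ^ (2 ^ t)) (hn : n ≤ b' + 1) :
    b' * n + 1 ≤ (b + 1) ^ (2 ^ (t + 1)) := by
  rw [pow_succ, pow_mul]
  refine le_trans ?_ (Nat.pow_le_pow_left h 2)
  nlinarith

lemma phase1 (a b : ℕ) (ha : 1 ≤ a) (hab : a ≤ b) (i : ℕ) :
    ∃ a' b' : ℕ, 1 ≤ a' ∧ a' ≤ a ∧ 2 ^ (2 ^ i) * a' ≤ b' ∧ b' + 1 ≤ (b + 1) ^ (2 ^ (i + 1)) ∧
      Rep (i + 1) ((a : ℚ) / b - (a' : ℚ) / b') := by
  induction i with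
  | zero =>
    obtain ⟨a', n, h1, h2, h3, h4, h5⟩ := greedy_step a b ha (ha.trans hab)
    have h6 := h4 1 (by omega)
    refine ⟨a', b * n, h1, h2, by simp; nlinarith, sq_bound (t := 0) (by simp) h3, ?_⟩
    rw [h5]; exact Rep.one (by omega)
  | succ i ih =>
    obtain ⟨a1, b1, g1, g2, g3, g4, g5⟩ := ih
    have hb1 : 1 ≤ b1 := le_trans (Nat.mul_pos (by positivity) g1) g3
    obtain ⟨a', n, h1, h2, h3, h4, h5⟩ := greedy_step a1 b1 g1 hb1
    have h6 := h4 _ g3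
    refine ⟨a', b1 * n, h1, h2.trans g2, ?_, sq_bound g4 h3, ?_⟩
    · rw [pow_succ, pow_mul, sq]
      calc 2 ^ 2 ^ i * 2 ^ 2 ^ i * a' ≤ 2 ^ 2 ^ i * 2 ^ 2 ^ i * a1 := Nat.mul_le_mul_left _ h2
        _ = (2 ^ 2 ^ i * a1) * 2 ^ 2 ^ i := by ring
        _ ≤ b1 * n := Nat.mul_le_mul g3 h6.le
    · have := g5.add (Rep.one (n := n) (lt_of_le_of_lt (Nat.zero_le _) h6))
      rw [← h5] at this
      convert this using 1
      ring

lemma phase2 (a b E M : ℕ) (D : Finset ℕ) (hD : ∀ e ∈ D, e ∣ M ∧ 1 ≤ e ∧ e ≤ E) (ha : 1 ≤ a)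
    (hb : 1 ≤ b) (hE : E * a ≤ b) (j : ℕ) :
    ∃ (a' b' : ℕ) (A : Finset ℕ), 1 ≤ a' ∧ a' ≤ a ∧ 1 ≤ b' ∧ E * a' ≤ b' ∧
      b' + 1 ≤ (b + 1) ^ (2 ^ j) ∧ Rep j ((a : ℚ) / b - (a' : ℚ) / b') ∧
      A.card = D.card ^ j ∧ ∀ x ∈ A, x < b' ∧ DS j (b' * M) x ∧ (j = 0 ∨ 0 < x) := by
  classical
  induction j with
  | zero =>
    refine ⟨a, b, {0}, ha, le_rfl, hb, hE, by simp, by simpa using Rep.zero, by simp, ?_⟩
    intro x hx
    rw [mem_singleton] at hx
    subst hx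
    exact ⟨hb, DS.zero _, Or.inl rfl⟩
  | succ j ih =>
    obtain ⟨a1, b1, A, g1, g2, g3, g4, g5, g6, g7, g8⟩ := ih
    obtain ⟨a', n, h1, h2, h3, h4, h5⟩ := greedy_step a1 b1 g1 g3
    have h6 := h4 _ g4
    refine ⟨a', b1 * n, (A ×ˢ D).image (fun p => p.1 + b1 * p.2), h1, h2.trans g2,
      Nat.mul_pos g3 (by omega), ?_, sq_bound g5 h3, ?_, ?_, ?_⟩
    · calc E * a' ≤ E * a1 := Nat.mul_le_mul_left _ h2
        _ ≤ b1 := g4
        _ ≤ b1 * n := Nat.le_mul_of_pos_right _ (by omega)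
    · have := g6.add (Rep.one (n := n) (by omega))
      rw [← h5] at this
      convert this using 1
      ring
    · rw [card_image_of_injOn, card_product, g7, pow_succ]
      intro p hp p' hp' hpp
      simp only [coe_product, Set.mem_prod, mem_coe] at hp hp'
      have e1 := (g8 _ hp.1).1
      have e2 := (g8 _ hp'.1).1
      simp only at hpp
      have e3 : p.1 = p'.1 := by
        have := congrArg (· % b1) hpp
        simpa [Nat.add_mul_mod_self_left, Nat.mod_eq_of_lt e1, Nat.mod_eq_of_lt e2] using this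
      have e4 : p.2 = p'.2 := by
        rw [e3] at hpp
        exact Nat.eq_of_mul_eq_mul_left g3 (Nat.add_left_cancel hpp)
      exact Prod.ext e3 e4
    · intro x hx
      obtain ⟨p, hp, rfl⟩ := mem_image.1 hx
      rw [mem_product] at hp
      obtain ⟨e1, e2, -⟩ := g8 _ hp.1
      obtain ⟨f1, f2, f3⟩ := hD _ hp.2
      refine ⟨by nlinarith, ?_, Or.inr (by nlinarith)⟩
      refine DS.add (e2.mono le_rfl ?_) (DS.single ?_)
      · exact mul_dvd_mul (dvd_mul_right _ _) dvd_rfl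
      · exact mul_dvd_mul (dvd_mul_right _ _) f1

end Vale.Agent.P012
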