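import Vale.Agent.P012.Average

namespace Vale.Agent.P012
open Finset ArithmeticFunction
open scoped ArithmeticFunction.Omega Nat

/-- number of prime factors below `z`, with multiplicity -/
def cnt (z x : ℕ) : ℕ := ∑ p ∈ (range z).filter Nat.Prime, x.factorization p

lemma cnt_avg (z X : ℕ) : ∑ x ∈ Ioc 0 X, (cnt z x : ℝ) ≤ X * (1 + Real.log z) := by
  classical
  have h1 : ∀ p : ℕ, p.Prime → ∑ x ∈ Ioc 0 X, (x.factorization p : ℝ) ≤ X * (1 / ((p - 1 : ℕ) : ℝ)) := by
    intro p hp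
    have h2 : (X !).factorization p = ∑ x ∈ Ioc 0 X, x.factorization p := by
      have : X ! = ∏ x ∈ Ioc 0 X, x := by
        rw [← Finset.prod_Ico_id_eq_factorial]
        congr 1
      rw [this, Nat.factorization_prod (fun x hx => by have := (mem_Ioc.1 hx).1; omega)]
      simp [Finsupp.finsetSum_apply]
    have h3 := Nat.factorization_factorial_le_div_pred hp X
    rw [h2] at h3
    have h4 : ((∑ x ∈ Ioc 0 X, x.factorization p : ℕ) : ℝ) ≤ ((X / (p - 1) : ℕ) : ℝ) := by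
      exact_mod_cast h3
    rw [Nat.cast_sum] at h4
    refine h4.trans (Nat.cast_div_le.trans ?_)
    rw [mul_one_div]
  simp only [cnt, Nat.cast_sum]
  rw [Finset.sum_comm]
  refine (Finset.sum_le_sum fun p hp => h1 p (mem_filter.1 hp).2).trans ?_
  rw [← Finset.mul_sum]
  refine mul_le_mul_of_nonneg_left ?_ (by positivity)
  have hinj : Set.InjOn (fun p : ℕ => p - 1) ((range z).filter Nat.Prime : Finset ℕ) := by
    intro a ha b hb hab
    have ha2 := (mem_filter.1 ha).2.two_le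
    have hb2 := (mem_filter.1 hb).2.two_le
    simp only at hab
    omega
  rw [← Finset.sum_image (f := fun n : ℕ => 1 / (n : ℝ)) hinj]
  apply sum_inv_le
  intro n hn
  rw [mem_image] at hn
  obtain ⟨p, hp, rfl⟩ := hn
  rw [mem_filter, mem_range] at hp
  have := hp.2.two_le
  rw [mem_Icc]; omega

lemma bad_cnt (z X J : ℕ) (hJ : 20 * (1 + Real.log z) ≤ J) (hJ0 : 0 < J) :
    (((Ioc 0 X).filter (fun x => J < cnt z x)).card : ℝ) ≤ X / 20 := by
  have h1 := cnt_avg z X
  have hJ' : (0 : ℝ) < J := by exact_mod_cast hJ0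
  have h2 : (((Ioc 0 X).filter (fun x => J < cnt z x)).card : ℝ) * J
      ≤ ∑ x ∈ Ioc 0 X, (cnt z x : ℝ) := by
    calc (((Ioc 0 X).filter (fun x => J < cnt z x)).card : ℝ) * J
        = ∑ x ∈ (Ioc 0 X).filter (fun x => J < cnt z x), (J : ℝ) := by simp
      _ ≤ ∑ x ∈ (Ioc 0 X).filter (fun x => J < cnt z x), (cnt z x : ℝ) :=
          Finset.sum_le_sum fun x hx => by exact_mod_cast (mem_filter.1 hx).2.le
      _ ≤ _ := Finset.sum_le_sum_of_subset_of_nonneg (filter_subset _ _)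
          (fun _ _ _ => by positivity)
  have h3 : (X : ℝ) * (1 + Real.log z) ≤ X / 20 * J := by
    have : (0 : ℝ) ≤ X := by positivity
    nlinarith
  exact le_of_mul_le_mul_right (h2.trans (h1.trans h3)) hJ'

lemma split_rough (z x : ℕ) (hx : x ≠ 0) :
    ∃ u v, x = u * v ∧ (∀ p : ℕ, p.Prime → p ∣ u → p < z) ∧ rough z v := by
  induction x using induction_on_primes with
  | zero => exact absurd rfl hx
  | one =>
    refine ⟨1, 1, rfl, fun p hp h => ?_, fun p hp h => ?_⟩ <;>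
      exact absurd (Nat.le_of_dvd one_pos h) (by have := hp.two_le; omega)
  | prime_mul p n hp ih =>
    have hn : n ≠ 0 := by rintro rfl; simp at hx
    obtain ⟨u, v, rfl, hu, hv⟩ := ih hn
    by_cases h : p < z
    · refine ⟨p * u, v, by ring, fun r hr hru => ?_, hv⟩
      rcases (Nat.Prime.dvd_mul hr).1 hru with h1 | h1
      · rwa [(Nat.prime_dvd_prime_iff_eq hr hp).1 h1]
      · exact hu r hr h1
    · refine ⟨u, p * v, by ring, hu, fun r hr hru => ?_⟩
      rcases (Nat.Prime.dvd_mul hr).1 hru with h1 | h1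
      · rw [(Nat.prime_dvd_prime_iff_eq hr hp).1 h1]; omega
      · exact hv r hr h1

lemma Omega_le_cnt (z x u : ℕ) (hx : x ≠ 0) (hux : u ∣ x)
    (hu : ∀ p : ℕ, p.Prime → p ∣ u → p < z) : Ω u ≤ cnt z x := by
  have hu0 : u ≠ 0 := by rintro rfl; exact hx (by simpa using hux)
  rw [cardFactors_eq_sum_factorization, Finsupp.sum, cnt]
  have hle : u.factorization ≤ x.factorization := (Nat.factorization_le_iff_dvd hu0 hx).2 hux
  refine le_trans (Finset.sum_le_sum fun p _ => hle p) ?_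
  refine Finset.sum_le_sum_of_subset ?_
  intro p hp
  rw [Nat.support_factorization, Nat.mem_primeFactors] at hp
  rw [mem_filter, mem_range]
  exact ⟨hu p hp.1 hp.2.1, hp.1⟩

lemma le_pow_Omega (z u : ℕ) (hu0 : u ≠ 0) (hu : ∀ p : ℕ, p.Prime → p ∣ u → p < z) :
    u ≤ z ^ (Ω u) := by
  rw [cardFactors_apply]
  conv_lhs => rw [← Nat.prod_primeFactorsList hu0]
  apply List.prod_le_pow_card
  intro p hp
  exact (hu p (Nat.prime_of_mem_primeFactorsList hp) (Nat.dvd_of_mem_primeFactorsList hp)).le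

lemma dvd_factorial_pow (z e : ℕ) (he0 : e ≠ 0) (he : ∀ p : ℕ, p.Prime → p ∣ e → p < z) :
    e ∣ (z !) ^ (Ω e) := by
  induction e using induction_on_primes with
  | zero => exact absurd rfl he0
  | one => simp
  | prime_mul p n hp ih =>
    have hn : n ≠ 0 := by rintro rfl; simp at he0
    rw [cardFactors_mul hp.ne_zero hn, cardFactors_apply_prime hp, pow_add, pow_one]
    refine mul_dvd_mul ?_ (ih hn fun r hr h => he r hr (h.mul_left _))
    exact (hp.dvd_factorial).2 (he p hp (dvd_mul_right _ _)).le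

lemma decomp (z0 z J x : ℕ) (hz : 1 ≤ z) (hx : x ≠ 0) (hc : cnt z x ≤ J) :
    ∃ e g q, x = e * g * q ∧ e ∣ (z0 !) ^ J ∧ rough z0 g ∧ g ≤ z ^ J ∧ rough z q := by
  obtain ⟨u, q, rfl, hu, hq⟩ := split_rough z x hx
  have hu0 : u ≠ 0 := by rintro rfl; simp at hx
  have h1 : Ω u ≤ J := (Omega_le_cnt z _ u hx (dvd_mul_right _ _) hu).trans hc
  have h2 : u ≤ z ^ J := (le_pow_Omega z u hu0 hu).trans (Nat.pow_le_pow_right hz h1)
  obtain ⟨e, g, rfl, he, hg⟩ := split_rough z0 u hu0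
  have he0 : e ≠ 0 := by rintro rfl; simp at hu0
  have hg0 : g ≠ 0 := by rintro rfl; simp at hu0
  refine ⟨e, g, q, rfl, ?_, hg, ?_, hq⟩
  · refine (dvd_factorial_pow z0 e he0 he).trans (pow_dvd_pow _ ?_)
    rw [cardFactors_mul he0 hg0] at h1
    omega
  · exact (Nat.le_mul_of_pos_left _ (Nat.pos_of_ne_zero he0)).trans h2

/-- many primes below a square of a power of two -/
lemma card_primes (j : ℕ) (hj : 3 ≤ j) : 2 ^ j ≤ (Nat.primesLE ((2 ^ j) ^ 2)).card := by
  by_contra hcon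
  push Not at hcon
  set m := 2 ^ j with hm
  set n := m ^ 2 with hn
  have h1 := Chebyshev.two_pow_le_mul_lcmUpto n
  have hn0 : n ≠ 0 := by positivity
  have h2 : Nat.lcmUpto n ≤ n ^ m := by
    rw [Nat.lcmUpto_eq_prod_pow_log]
    refine (Finset.prod_le_pow_card _ _ n fun p _ => Nat.pow_log_le_self p hn0).trans ?_
    exact Nat.pow_le_pow_right (Nat.pos_of_ne_zero hn0) hcon.le
  have h3 : n = 2 ^ (2 * j) := by rw [hn, hm, ← pow_mul, mul_comm]
  have h4 : n + 1 ≤ 2 ^ (2 * j + 1) := by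
    rw [pow_succ, ← h3]; omega
  have h5 : 2 ^ n ≤ 2 ^ (2 * j + 1 + 2 * j * m) := by
    calc 2 ^ n ≤ (n + 1) * Nat.lcmUpto n := h1
      _ ≤ 2 ^ (2 * j + 1) * n ^ m := Nat.mul_le_mul h4 h2
      _ = 2 ^ (2 * j + 1 + 2 * j * m) := by rw [h3, ← pow_mul, ← pow_add]
  have h6 : n ≤ 2 * j + 1 + 2 * j * m := (Nat.pow_le_pow_iff_right (by norm_num)).1 h5
  have h7 : ∀ i : ℕ, 2 * (i + 3) + 2 ≤ 2 ^ (i + 3) := by
    intro i
    induction i with
    | zero => norm_num
    | succ k ih => rw [show k + 1 + 3 = (k + 3) + 1 by ring, pow_succ]; omega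
  have h8 : 2 * j + 2 ≤ m := by
    have := h7 (j - 3)
    rwa [Nat.sub_add_cancel hj] at this
  rw [hn] at h6
  nlinarith

lemma exists_many_divisors (j w : ℕ) (hj : 3 ≤ j) (hw : w ≤ 2 ^ j) :
    ∃ M : ℕ, 0 < M ∧ M ≤ 2 ^ (2 * j * w) ∧ 2 ^ w ≤ M.divisors.card := by
  obtain ⟨P, hP, hPc⟩ := Finset.exists_subset_card_eq (hw.trans (card_primes j hj))
  have hpr : ∀ p ∈ P, p.Prime := fun p hp => Nat.prime_of_mem_primesLE (hP hp)
  have hM : 0 < ∏ p ∈ P, p := Finset.prod_pos fun p hp => (hpr p hp).pos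
  refine ⟨∏ p ∈ P, p, hM, ?_, ?_⟩
  · refine (Finset.prod_le_pow_card _ _ ((2 ^ j) ^ 2) fun p hp => ?_).trans ?_
    · exact Nat.le_of_mem_primesLE (hP hp)
    · rw [hPc, ← pow_mul, ← pow_mul]; apply le_of_eq; congr 1; ring
  · rw [Nat.card_divisors hM.ne', Nat.primeFactors_prod hpr, ← hPc]
    apply Finset.pow_card_le_prod
    intro p hp
    have : 1 ≤ (∏ p ∈ P, p).factorization p :=
      ((hpr p hp).dvd_iff_one_le_factorization hM.ne').1 (Finset.dvd_prod_of_mem _ hp)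
    omega

end Vale.Agent.P012
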