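import Vale.Agent.P012.Smooth
import Vale.Agent.P012.Greedy

namespace Vale.Agent.P012
open Finset
open scoped Nat

lemma exists_pair (X : ℕ) (hX : 3 ≤ X) (bad : Finset ℕ) (hb : (bad.card : ℝ) ≤ X / 4) :
    ∃ x y : ℕ, x + y = X ∧ 0 < x ∧ 0 < y ∧ x ∉ bad ∧ y ∉ bad := by
  classical
  by_contra hcon
  push Not at hcon
  have hsub : Ioo 0 X ⊆ bad ∪ bad.image (fun y => X - y) := by
    intro x hx
    rw [mem_Ioo] at hx
    by_cases h : x ∈ bad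
    · exact mem_union_left _ h
    · have := hcon x (X - x) (by omega) hx.1 (by omega) h
      exact mem_union_right _ (mem_image.2 ⟨X - x, this, by omega⟩)
  have h1 := (card_le_card hsub).trans (card_union_le _ _)
  have h2 : (bad.image (fun y => X - y)).card ≤ bad.card := card_image_le
  rw [Nat.card_Ioo] at h1
  have h3 : X ≤ 2 * bad.card + 1 := by omega
  have h4 : (X : ℝ) ≤ 2 * bad.card + 1 := by exact_mod_cast h3
  have h5 : (3 : ℝ) ≤ X := by exact_mod_cast hX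
  linarith

theorem split_rep (a b : ℕ) (A : Finset ℕ) (k Mw Ms J φ1 φ2 ρ L1 L2 Y V : ℕ)
    (ha : 1 ≤ a) (hb : 1 ≤ b) (hMw : 3 ≤ Mw) (hMs : 0 < Ms)
    (hA : ∀ x ∈ A, x ≤ 2 ^ L2 ∧ DS k (b * Mw) x ∧ 0 < x) (hMwL : Mw ≤ 2 ^ L2) (hMsL : Ms ≤ 2 ^ L1)
    (hρ : 4 ≤ ρ) (h1 : 100 * L1 ≤ φ1) (h1' : 0 < φ1) (h2 : 100 * L2 ≤ φ2) (h2' : 0 < φ2)
    (hJ : 20 * (1 + Real.log ((φ2 ^ ρ : ℕ) : ℝ)) ≤ J) (hJ0 : 0 < J)
    (hs1 : 50 * (φ2 ^ ρ) ^ J ≤ Ms.divisors.card)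
    (hs2 : 50 * (((φ2 ^ ρ) ^ J : ℕ) : ℝ) * (1 + Real.log (((φ2 ^ ρ) ^ J : ℕ) : ℝ))
      ≤ Ms.divisors.card)
    (hX : a * (Ms * Ms * (Mw * Mw) * ((φ1 ^ 4)!) ^ J) ≤ Y) (hYV : Y ^ 3 ≤ V ^ ρ) (hV : 1 ≤ V)
    (hAc : 50 * Y ≤ A.card) (hBc : 50 * (V : ℝ) * (1 + Real.log Y) ≤ Mw.divisors.card) :
    Rep (18 * k) ((a : ℚ) / b) := by
  classical
  set z := φ2 ^ ρ with hz
  set M0 := ((φ1 ^ 4)!) ^ J with hM0
  set X := a * (Ms * Ms * (Mw * Mw) * M0) with hXdef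
  have hM00 : 0 < M0 := by rw [hM0]; exact pow_pos (Nat.factorial_pos _) _
  have hz1 : 1 ≤ z := Nat.pow_pos h2'
  have hY1 : 1 ≤ z ^ J := Nat.pow_pos hz1
  have hX3 : 3 ≤ X := by
    rw [hXdef]
    have e1 : 1 ≤ Ms * Ms := Nat.mul_pos hMs hMs
    have e2 : 3 ≤ Mw * Mw := by nlinarith
    calc 3 = 1 * (1 * 3 * 1) := by norm_num
      _ ≤ _ := Nat.mul_le_mul ha (Nat.mul_le_mul (Nat.mul_le_mul e1 e2) hM00)
  have hdiv : ∀ M L : ℕ, M ≤ 2 ^ L → ∀ d ∈ M.divisors, d ≤ 2 ^ L := fun M L h d hd =>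
    (Nat.divisor_le hd).trans h
  obtain ⟨bad1, c1, p1⟩ := app Ms.divisors Ms.divisors X (z ^ J) (z ^ J) φ1 4 L1 le_rfl h1 h1'
    (hdiv _ _ hMsL) (hdiv _ _ hMsL) hY1 hY1 (Nat.pow_le_pow_right hY1 (by norm_num)) hs1 hs2
  obtain ⟨bad2, c2, p2⟩ := app A Mw.divisors X Y V φ2 ρ L2 hρ h2 h2'
    (fun x hx => (hA x hx).1) (hdiv _ _ hMwL) (by omega) hV hYV hAc hBc
  have c0 := bad_cnt z X J hJ hJ0
  set bad0 := (Ioc 0 X).filter (fun x => J < cnt z x) with hbad0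
  have good : ∀ x, 0 < x → x ≤ X → x ∉ bad0 ∪ bad1 ∪ bad2 →
      Rep (9 * k) ((x : ℚ) / ((b * (Ms * Ms * (Mw * Mw) * M0) : ℕ) : ℚ)) := by
    intro x hx0 hxX hx
    simp only [mem_union, not_or] at hx
    have hxI : x ∈ Ioc 0 X := mem_Ioc.2 ⟨hx0, hxX⟩
    have hc : cnt z x ≤ J := by
      by_contra h
      exact hx.1.1 (mem_filter.2 ⟨hxI, by omega⟩)
    obtain ⟨e, g, q, rfl, he, hg, hgY, hq⟩ := decomp (φ1 ^ 4) z J x hz1 hx0.ne' hc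
    obtain ⟨u1, hu1, u2, hu2, u3, hu3, l, hl, hgd⟩ :=
      p1 _ hxI hx.1.2 g (Dvd.intro_left e rfl |>.mul_right q) hgY hg
    obtain ⟨v1, hv1, v2, hv2, v3, hv3, l', hl', hqd⟩ :=
      p2 _ hxI hx.2 q (Dvd.intro_left _ rfl)
        ((Nat.le_of_dvd hx0 (Dvd.intro_left _ rfl)).trans (hxX.trans hX)) hq
    have d1 : DS 3 (Ms * Ms) (u1 + u2 + l * u3) :=
      ((DS.single ((Nat.dvd_of_mem_divisors hu1).mul_left Ms)).add
        (DS.single ((Nat.dvd_of_mem_divisors hu2).mul_left Ms))).add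
        (DS.single (mul_dvd_mul (Nat.dvd_of_mem_divisors hl) (Nat.dvd_of_mem_divisors hu3)))
    have d2 : DS (k + k + k) (Mw * (b * Mw)) (v1 + v2 + l' * v3) :=
      (((hA _ hv1).2.1.mono le_rfl (dvd_mul_left _ _)).add
        ((hA _ hv2).2.1.mono le_rfl (dvd_mul_left _ _))).add
        ((hA _ hv3).2.1.smul (Nat.dvd_of_mem_divisors hl'))
    have d3 := d1.mul d2
    have hS : (u1 + u2 + l * u3) * (v1 + v2 + l' * v3) ≠ 0 := by
      have e1 := Nat.pos_of_mem_divisors hu1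
      have e2 := (hA _ hv1).2.2
      positivity
    have := d3.rep' hS (mul_dvd_mul hgd hqd) he hM00.ne' (by
      have : 0 < Mw := by omega
      positivity)
    rw [show 9 * k = 3 * (k + k + k) by ring, mul_assoc e g q,
      show b * (Ms * Ms * (Mw * Mw) * M0) = Ms * Ms * (Mw * (b * Mw)) * M0 by ring]
    exact this
  obtain ⟨x, y, hxy, hx0, hy0, hx, hy⟩ := exists_pair X hX3 (bad0 ∪ bad1 ∪ bad2) (by
    have e1 := card_union_le (bad0 ∪ bad1) bad2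
    have e2 := card_union_le bad0 bad1
    have e3 : ((bad0 ∪ bad1 ∪ bad2).card : ℝ) ≤ bad0.card + bad1.card + bad2.card := by
      exact_mod_cast (by omega : (bad0 ∪ bad1 ∪ bad2).card ≤ bad0.card + bad1.card + bad2.card)
    linarith)
  have := (good x hx0 (by omega) hx).add (good y hy0 (by omega) hy)
  convert this using 1
  · ring
  · rw [← add_div, ← Nat.cast_add, hxy, hXdef]
    have : 0 < Mw := by omega
    have e1 : ((Ms * Ms * (Mw * Mw) * M0 : ℕ) : ℚ) ≠ 0 := by positivity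
    have e2 : (b : ℚ) ≠ 0 := by positivity
    rw [Nat.cast_mul a, Nat.cast_mul b]
    field_simp

end Vale.Agent.P012
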